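import Crest.Agent.X212.Sym24.Alg
import Crest.Agent.R208.FH10a

/-!
# X212 / Sym24, part 2 (helper24): forms on `M × ℝ`, the homotopy operator

`pu`, `dt`, `sl`, `nf`, `hp` (`d_hp`), and the radial primitive `rad` :
`d (t • rad ω) = ω - pu (sl 0 ω)` for closed `ω` on `M × (-ε, ε)`.
-/

set_option autoImplicit false
set_option linter.unusedSectionVars false

open Set Filter Topology Function Module MeasureTheory
open scoped ContDiff Manifold
open Crest.Agent.R208 Crest.Agent.R208.F Crest.Agent.R208.FI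
open Crest.Agent.X212.Dr59 Crest.Agent.X212.Int54

noncomputable section

namespace Crest.Agent.X212.Sym24

variable {E : Type*} [NormedAddCommGroup E] [NormedSpace ℝ E] [FiniteDimensional ℝ E]
  {H : Type*} [TopologicalSpace H] {I : ModelWithCorners ℝ E H}
  {M : Type*} [TopologicalSpace M] [ChartedSpace H M]
  {E' : Type*} [NormedAddCommGroup E'] [NormedSpace ℝ E'] [FiniteDimensional ℝ E']
  {H' : Type*} [TopologicalSpace H'] {J : ModelWithCorners ℝ E' H'}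
  {N : Type*} [TopologicalSpace N] [ChartedSpace H' N]

/-- the model of `M × ℝ` -/
abbrev IR (I : ModelWithCorners ℝ E H) := I.prod 𝓘(ℝ, ℝ)

/-- pull-back by the projection `M × ℝ → M` -/
def pu (a : M → Ext E) (p : M × ℝ) : Ext (E × ℝ) := up (a p.1)

variable (E M) in
/-- the form `dt` on `M × ℝ` -/
def dt (_ : M × ℝ) : Ext (E × ℝ) := dT E

/-- restriction to the slice `t = s` -/
def sl (s : ℝ) (a : M × ℝ → Ext (E × ℝ)) (x : M) : Ext E := dn (a (x, s))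

/-- contraction with `∂/∂t` -/
def nf (a : M × ℝ → Ext (E × ℝ)) (p : M × ℝ) : Ext (E × ℝ) := ii (eT E) (a p)

/-- the homotopy operator -/
def hp (a : M × ℝ → Ext (E × ℝ)) (x : M) : Ext E := ∫ t in (0 : ℝ)..1, nc (a (x, t))

theorem inv1 {a : Ext E} (h : IsDeg 1 a) : F.inv a = -a := by
  rw [inv_of_deg h]
  simp

theorem inv2 {a : Ext E} (h : IsDeg 2 a) : F.inv a = a := by
  rw [inv_of_deg h]
  simp

theorem inv_dT : F.inv (dT E) = -dT E := inv1 isDeg_dT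

theorem pm_fst (a : M → Ext E) : pm (IR I) I Prod.fst a = pu a := by
  funext p
  rw [pm_apply, mf, mfderiv_fst]
  rfl

theorem df_snd : df (IR I) (Prod.snd : M × ℝ → ℝ) = dt E M := by
  funext p
  rw [df, mf, mfderiv_snd]
  rfl

theorem pm_inl (s : ℝ) (a : M × ℝ → Ext (E × ℝ)) : pm I (IR I) (fun x => (x, s)) a = sl s a := by
  funext x
  rw [pm_apply, mf, mfderiv_prod_left]
  rfl

theorem sl_pu (s : ℝ) (a : M → Ext E) : sl s (pu a) = a := funext fun _ => dn_up _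

theorem pu_mul (a b : M → Ext E) : pu (a * b) = pu a * pu b := funext fun _ => map_mul _ _ _
theorem pu_add (a b : M → Ext E) : pu (a + b) = pu a + pu b := funext fun _ => map_add _ _ _
theorem pu_sub (a b : M → Ext E) : pu (a - b) = pu a - pu b := funext fun _ => map_sub _ _ _

/-- differential of a function of `t` -/
theorem df_comp_snd {g : ℝ → ℝ} {g' : ℝ} {p : M × ℝ} (h : HasDerivAt g g' p.2) :
    df (IR I) (fun q : M × ℝ => g q.2) p = g' • dT E := by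
  have h1 : HasMFDerivAt (IR I) 𝓘(ℝ, ℝ) (fun q : M × ℝ => g q.2) p _ :=
    h.hasFDerivAt.hasMFDerivAt.comp p (hasMFDerivAt_snd p)
  rw [df, mf_of_has h1, dT, ← map_smul]
  congr 1
  refine LinearMap.ext fun v => ?_
  exact mul_comm v.2 g'

/-- a map times the identity -/
theorem hasMF_prod {f : N → M} {p : N × ℝ} (hf : MDifferentiableAt J I f p.1) :
    HasMFDerivAt (IR J) (IR I) (Prod.map f id) p
      ((mf J I f p.1).prodMap (ContinuousLinearMap.id ℝ ℝ)) :=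
  (hf.hasMFDerivAt.comp p (hasMFDerivAt_fst p)).prodMk (hasMFDerivAt_snd p)

theorem dn_pb_prod (A : E' →L[ℝ] E) (c : Ext (E × ℝ)) :
    dn (pb (A.prodMap (ContinuousLinearMap.id ℝ ℝ) : E' × ℝ →ₗ[ℝ] E × ℝ) c)
      = pb (A : E' →ₗ[ℝ] E) (dn c) := by
  rw [dn, dn, pb_comp, pb_comp]
  congr 2

theorem ii_pb_prod (A : E' →L[ℝ] E) (c : Ext (E × ℝ)) :
    ii (eT E') (pb (A.prodMap (ContinuousLinearMap.id ℝ ℝ) : E' × ℝ →ₗ[ℝ] E × ℝ) c)
      = pb (A.prodMap (ContinuousLinearMap.id ℝ ℝ) : E' × ℝ →ₗ[ℝ] E × ℝ) (ii (eT E) c) := by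
  rw [ii_pb]
  congr 2
  ext
  simp [eT]

theorem nc_pb_prod (A : E' →L[ℝ] E) (c : Ext (E × ℝ)) :
    nc (pb (A.prodMap (ContinuousLinearMap.id ℝ ℝ) : E' × ℝ →ₗ[ℝ] E × ℝ) c)
      = pb (A : E' →ₗ[ℝ] E) (nc c) := by
  rw [nc_apply, ii_pb_prod, dn_pb_prod, nc_apply]

theorem pm_prod {f : N → M} {p : N × ℝ} (hf : MDifferentiableAt J I f p.1)
    (a : M × ℝ → Ext (E × ℝ)) : pm (IR J) (IR I) (Prod.map f id) a p =
      pb ((mf J I f p.1).prodMap (ContinuousLinearMap.id ℝ ℝ) : E' × ℝ →ₗ[ℝ] E × ℝ)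
        (a (f p.1, p.2)) := by
  rw [pm_apply, mf_of_has (hasMF_prod hf)]
  rfl

variable [I.Boundaryless] [IsManifold I ∞ M] [J.Boundaryless] [IsManifold J ∞ N]

theorem smAt_pu {a : M → Ext E} {p : M × ℝ} (h : SmAt I a p.1) : SmAt (IR I) (pu a) p := by
  rw [← pm_fst (I := I)]
  exact SmAt.pm contMDiffAt_fst h

theorem dM_pu {a : M → Ext E} {p : M × ℝ} (h : SmAt I a p.1) :
    dM (IR I) (pu a) p = pu (dM I a) p := by
  rw [← pm_fst (I := I), dM_pm ne0 contMDiffAt_fst h, pm_fst]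

theorem smAt_dt (p : M × ℝ) : SmAt (IR I) (dt E M) p := by
  rw [← df_snd (I := I)]
  exact smAt_df contMDiffAt_snd

theorem dM_dt (p : M × ℝ) : dM (IR I) (dt E M) p = 0 := by
  rw [← df_snd (I := I)]
  exact dM_df contMDiffAt_snd

theorem smAt_sl {a : M × ℝ → Ext (E × ℝ)} {s : ℝ} {x : M} (h : SmAt (IR I) a (x, s)) :
    SmAt I (sl s a) x := by
  rw [← pm_inl (I := I)]
  exact SmAt.pm (contMDiffAt_id.prodMk contMDiffAt_const) h

theorem dM_sl {a : M × ℝ → Ext (E × ℝ)} {s : ℝ} {x : M} (h : SmAt (IR I) a (x, s)) :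
    dM I (sl s a) x = sl s (dM (IR I) a) x := by
  rw [← pm_inl (I := I), dM_pm (f := fun x => (x, s)) ne0
    (contMDiffAt_id.prodMk contMDiffAt_const) h, pm_inl]

theorem dM_dt_mul {a : M × ℝ → Ext (E × ℝ)} {p : M × ℝ} (h : SmAt (IR I) a p) :
    dM (IR I) (dt E M * a) p = -(dT E * dM (IR I) a p) := by
  have h1 := dM_mul ne0 (smAt_dt (I := I) p) h
  rw [dM_dt, zero_mul, zero_add, dt, inv_dT, neg_mul] at h1
  exact h1

/-! ### the product chart -/

variable (I) in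
/-- inverse chart times the identity -/
def Ψ (x : M) (q : E × ℝ) : M × ℝ := ((extChartAt I x).symm q.1, q.2)

theorem contMDiffAt_Ψ {x : M} {q : E × ℝ} (h : q.1 ∈ (extChartAt I x).target) :
    ContMDiffAt 𝓘(ℝ, E × ℝ) (IR I) ∞ (Ψ I x) q :=
  ((contMDiffAt_chart_symm h).comp q (ContinuousLinearMap.fst ℝ E ℝ).contMDiff.contMDiffAt).prodMk
    (ContinuousLinearMap.snd ℝ E ℝ).contMDiff.contMDiffAt

theorem pm_Ψ {x : M} {q : E × ℝ} (h : q.1 ∈ (extChartAt I x).target) (a : M × ℝ → Ext (E × ℝ)) :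
    pm 𝓘(ℝ, E × ℝ) (IR I) (Ψ I x) a q =
      pb ((mf 𝓘(ℝ, E) I (extChartAt I x).symm q.1).prodMap (ContinuousLinearMap.id ℝ ℝ) :
        E × ℝ →ₗ[ℝ] E × ℝ) (a (Ψ I x q)) := by
  have h1 : HasMFDerivAt 𝓘(ℝ, E × ℝ) (IR I) (Ψ I x) q _ :=
    (((contMDiffAt_chart_symm h).mdifferentiableAt ne0).hasMFDerivAt.comp q
      (ContinuousLinearMap.fst ℝ E ℝ).hasMFDerivAt).prodMk
      (ContinuousLinearMap.snd ℝ E ℝ).hasMFDerivAt
  rw [pm_apply, mf_of_has h1]
  rfl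

theorem pm_Ψ_self (x : M) (t : ℝ) (a : M × ℝ → Ext (E × ℝ)) :
    pm 𝓘(ℝ, E × ℝ) (IR I) (Ψ I x) a (extChartAt I x x, t) = a (x, t) := by
  rw [pm_Ψ (mem_extChartAt_target x), mf_chart_symm_self, Ψ, extChartAt_to_inv]
  exact pb_id _

theorem contDiffAt_Ψ {x : M} {q : E × ℝ} (h : q.1 ∈ (extChartAt I x).target)
    {a : M × ℝ → Ext (E × ℝ)} (ha : SmAt (IR I) a (Ψ I x q)) :
    ContDiffAt ℝ ∞ (pm 𝓘(ℝ, E × ℝ) (IR I) (Ψ I x) a) q :=
  cAt_model.1 (SmAt.pm (contMDiffAt_Ψ h) ha)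

theorem contDiffAt_Ψ_self {x : M} {t : ℝ} {a : M × ℝ → Ext (E × ℝ)} (ha : SmAt (IR I) a (x, t)) :
    ContDiffAt ℝ ∞ (pm 𝓘(ℝ, E × ℝ) (IR I) (Ψ I x) a) (extChartAt I x x, t) :=
  contDiffAt_Ψ (mem_extChartAt_target x) (by rwa [Ψ, extChartAt_to_inv])

/-- smoothness on `M × ℝ` can be read in the product chart -/
theorem smAt_of_Ψ {x : M} {t : ℝ} {a : M × ℝ → Ext (E × ℝ)}
    (h : ContDiffAt ℝ ∞ (pm 𝓘(ℝ, E × ℝ) (IR I) (Ψ I x) a) (extChartAt I x x, t)) :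
    SmAt (IR I) a (x, t) := by
  have c : ∀ q : M × ℝ, q.1 ∈ (extChartAt I x).source →
      ContMDiffAt (IR I) 𝓘(ℝ, E × ℝ) ∞ (fun q : M × ℝ => (extChartAt I x q.1, q.2)) q :=
    fun q hq => ((contMDiffAt_chart hq).comp q contMDiffAt_fst).prodMk_space contMDiffAt_snd
  have h1 := SmAt.pm (c (x, t) (mem_extChartAt_source x)) (cAt_model.2 h)
  refine h1.congr ?_
  have o : IsOpen {q : M × ℝ | q.1 ∈ (extChartAt I x).source} :=
    (isOpen_extChartAt_source x).preimage continuous_fst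
  filter_upwards [o.mem_nhds (mem_extChartAt_source (I := I) x)] with q hq
  rw [pm_comp ((contMDiffAt_Ψ ((extChartAt I x).map_source hq)).mdifferentiableAt ne0)
    ((c q hq).mdifferentiableAt ne0)]
  refine (pm_of_eventually_id ?_ a).symm
  filter_upwards [o.mem_nhds hq] with r hr
  exact Prod.ext ((extChartAt I x).left_inv hr) rfl

theorem smAt_nf {a : M × ℝ → Ext (E × ℝ)} {p : M × ℝ} (ha : SmAt (IR I) a p) :
    SmAt (IR I) (nf a) p := by
  obtain ⟨x, t⟩ := p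
  refine smAt_of_Ψ (((iiL (eT E)).contDiff.contDiffAt.comp _
    (contDiffAt_Ψ_self ha)).congr_of_eventuallyEq ?_)
  have o : IsOpen {q : E × ℝ | q.1 ∈ (extChartAt I x).target} :=
    (isOpen_extChartAt_target x).preimage continuous_fst
  filter_upwards [o.mem_nhds (mem_extChartAt_target (I := I) x)] with q hq
  rw [comp_apply, pm_Ψ hq, pm_Ψ hq, iiL_apply, ii_pb_prod, nf]

theorem continuousAt_raw {x : M} {t : ℝ} {a : M × ℝ → Ext (E × ℝ)} (ha : SmAt (IR I) a (x, t)) :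
    ContinuousAt (fun s => a (x, s)) t := by
  have h := (contDiffAt_Ψ_self ha).continuousAt.comp
    (f := fun s : ℝ => (extChartAt I x x, s)) (by fun_prop)
  refine h.congr (Eventually.of_forall fun s => ?_)
  exact pm_Ψ_self x s a

/-! ### the homotopy operator -/

variable (E) in
/-- continuous version of `nc` -/
def ncL : Ext (E × ℝ) →L[ℝ] Ext E := hopL (ContinuousLinearMap.inl ℝ E ℝ) (eT E)

theorem ncL_apply (c : Ext (E × ℝ)) : ncL E c = nc c := rfl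

theorem jv_eq (u : E) (t : ℝ) : jv (ContinuousLinearMap.inl ℝ E ℝ) (eT E) (u, t) = (u, t) := by
  rw [jv_apply]
  ext <;> simp [eT]

theorem hop_eq (Om : E × ℝ → Ext (E × ℝ)) (u : E) :
    hop (ContinuousLinearMap.inl ℝ E ℝ) (eT E) Om u = ∫ t in (0 : ℝ)..1, nc (Om (u, t)) := by
  simp only [hop, I1, hopg, jv_eq]
  rfl

theorem integrable_nc {x : M} {a : M × ℝ → Ext (E × ℝ)}
    (ha : ∀ t ∈ Icc (0 : ℝ) 1, SmAt (IR I) a (x, t)) :
    IntervalIntegrable (fun t => nc (a (x, t))) volume 0 1 := by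
  refine ContinuousOn.intervalIntegrable ?_
  rw [uIcc_of_le zero_le_one]
  exact fun t ht =>
    ((ncL E).continuous.continuousAt.comp (continuousAt_raw (ha t ht))).continuousWithinAt

variable {U : Set M} {a : M × ℝ → Ext (E × ℝ)}

theorem rp_hp (hU : IsOpen U) (ha : Sm (IR I) (U ×ˢ Icc 0 1) a) {x : M} (hx : x ∈ U) :
    rp I x (hp a) =ᶠ[𝓝 (extChartAt I x x)]
      hop (ContinuousLinearMap.inl ℝ E ℝ) (eT E) (pm 𝓘(ℝ, E × ℝ) (IR I) (Ψ I x) a) := by
  filter_upwards [(tendsto_chart_symm (I := I) x).eventually (hU.mem_nhds hx),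
    extChartAt_target_mem_nhds (I := I) x] with u hu hu'
  rw [hop_eq, rp, pm_apply, hp]
  have h := (pbL (mf 𝓘(ℝ, E) I (extChartAt I x).symm u)).intervalIntegral_comp_comm
    (integrable_nc (I := I) fun t ht => ha _ ⟨hu, ht⟩)
  refine h.symm.trans (intervalIntegral.integral_congr fun t _ => ?_)
  show _ = nc _
  rw [pm_Ψ (q := (u, t)) hu', nc_pb_prod]
  rfl

theorem sm_hp (hU : IsOpen U) (ha : Sm (IR I) (U ×ˢ Icc 0 1) a) : Sm I U (hp a) := fun x hx =>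
  ContDiffAt.congr_of_eventuallyEq (contDiffAt_hop fun t ht => by
    rw [jv_eq]; exact contDiffAt_Ψ_self (ha _ ⟨hx, ht⟩)) (rp_hp hU ha hx)

/-- **homotopy formula** -/
theorem d_hp (hU : IsOpen U) (ha : Sm (IR I) (U ×ˢ Icc 0 1) a) {x : M} (hx : x ∈ U) :
    dM I (hp a) x + hp (dM (IR I) a) x = sl 1 a x - sl 0 a x := by
  have h := d_hop (j := ContinuousLinearMap.inl ℝ E ℝ) (v := eT E)
    (Om := pm 𝓘(ℝ, E × ℝ) (IR I) (Ψ I x) a) (x := extChartAt I x x) fun t ht => by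
      rw [jv_eq]; exact (contDiffAt_Ψ_self (ha _ ⟨hx, ht⟩)).of_le (by simp)
  rw [jv_eq, jv_eq, pm_Ψ_self, pm_Ψ_self, hop_eq] at h
  rw [dM, d_congr (rp_hp hU ha hx)]
  refine Eq.trans (congrArg _ ?_) h
  refine intervalIntegral.integral_congr fun t ht => ?_
  rw [uIcc_of_le zero_le_one] at ht
  show nc _ = nc _
  rw [← dM_model, dM_pm ne0 (contMDiffAt_Ψ (mem_extChartAt_target x))
    (by rw [Ψ, extChartAt_to_inv]; exact ha _ ⟨hx, ht⟩), pm_Ψ_self]

theorem isDeg_hp {k : ℕ} {x : M} (ha : ∀ t ∈ Icc (0 : ℝ) 1, SmAt (IR I) a (x, t))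
    (hd : ∀ t ∈ Icc (0 : ℝ) 1, IsDeg (k + 1) (a (x, t))) : IsDeg k (hp a x) := by
  have h := (T.dplL (E := E) k).intervalIntegral_comp_comm (integrable_nc (I := I) ha)
  have h2 : T.dpl k (hp a x) = hp a x := by
    refine h.symm.trans (intervalIntegral.integral_congr fun t ht => ?_)
    rw [uIcc_of_le zero_le_one] at ht
    exact T.dpl_of_isDeg (isDeg_nc (hd t ht))
  rw [← h2]
  exact T.isDeg_dpl _ _

end Crest.Agent.X212.Sym24
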