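import Mathlib

/-!
# X212 / Sym24, part 3 (helper24): two cut-off functions of one real variable

`exists_log` (logarithmic cut-off, `|t χ'| ≤ κ`), `exists_stretch` (`t` to `δ (t - T)`, monotone).
-/

set_option autoImplicit false

open Set Filter Topology Function Real
open scoped ContDiff

namespace Crest.Agent.X212.Sym24

theorem st_diff (x : ℝ) : HasDerivAt smoothTransition (deriv smoothTransition x) x :=
  ((smoothTransition.contDiff (n := 1)).differentiable (by simp) x).hasDerivAt

theorem st_deriv_zero {x : ℝ} (hx : x ∉ Icc (0 : ℝ) 1) : deriv smoothTransition x = 0 := by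
  rcases not_and_or.1 hx with h | h
  · have : smoothTransition =ᶠ[𝓝 x] fun _ => 0 := by
      filter_upwards [Iio_mem_nhds (not_le.1 h)] with y hy using
        smoothTransition.zero_of_nonpos (le_of_lt hy)
    rw [this.deriv_eq, deriv_const]
  · have : smoothTransition =ᶠ[𝓝 x] fun _ => 1 := by
      filter_upwards [Ioi_mem_nhds (not_le.1 h)] with y hy using
        smoothTransition.one_of_one_le (le_of_lt hy)
    rw [this.deriv_eq, deriv_const]

theorem exists_st_bd : ∃ L, 0 < L ∧ ∀ x, |deriv smoothTransition x| ≤ L := by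
  have hc : Continuous (deriv smoothTransition) :=
    (smoothTransition.contDiff (n := 1)).continuous_deriv le_rfl
  obtain ⟨L, hL⟩ := isCompact_Icc.exists_bound_of_continuousOn
    (hc.continuousOn (s := Icc (0 : ℝ) 1))
  refine ⟨|L| + 1, by positivity, fun x => ?_⟩
  by_cases hx : x ∈ Icc (0 : ℝ) 1
  · exact (hL x hx).trans ((le_abs_self L).trans (by linarith))
  · rw [st_deriv_zero hx, abs_zero]
    positivity

/-- the logarithmic cut-off -/
theorem exists_log {δ κ : ℝ} (hδ : 0 < δ) (hκ : 0 < κ) : ∃ (χ : ℝ → ℝ) (ε : ℝ), ContDiff ℝ ∞ χ ∧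
    0 < ε ∧ ε < δ ∧ (∀ t, χ t ∈ Icc (0 : ℝ) 1) ∧ (∀ t ≤ -δ, χ t = 0) ∧ (∀ t, -ε ≤ t → χ t = 1) ∧
    ∀ t, |t * deriv χ t| ≤ κ := by
  obtain ⟨L, hL, hb⟩ := exists_st_bd
  set k := κ / L with hk
  have k0 : 0 < k := div_pos hκ hL
  let g : ℝ → ℝ := fun t => smoothTransition (-k * log (t / δ))
  let χ : ℝ → ℝ := fun t => if t < 0 then g t else 1
  have e0 : 0 < δ * exp (-k⁻¹) := mul_pos hδ (exp_pos _)
  have h1 : ∀ t, -(δ * exp (-k⁻¹)) ≤ t → χ t = 1 := fun t ht => by
    by_cases h : t < 0
    · refine (if_pos h).trans (smoothTransition.one_of_one_le ?_)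
      have h2 : log (t / δ) ≤ -k⁻¹ := by
        rw [← log_neg_eq_log, ← neg_div, log_le_iff_le_exp (div_pos (neg_pos.2 h) hδ),
          div_le_iff₀ hδ]
        linarith
      have := mul_le_mul_of_nonneg_left h2 k0.le
      rw [mul_neg, mul_inv_cancel₀ k0.ne'] at this
      linarith
    · exact if_neg h
  have hn : ∀ t < 0, χ =ᶠ[𝓝 t] g := fun t ht => by
    filter_upwards [Iio_mem_nhds ht] with s hs using if_pos hs
  have hp : ∀ t, ¬t < 0 → χ =ᶠ[𝓝 t] fun _ => 1 := fun t ht => by
    filter_upwards [Ioi_mem_nhds (show -(δ * exp (-k⁻¹)) < t by linarith [not_lt.1 ht])] with s hs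
      using h1 s (le_of_lt hs)
  refine ⟨χ, δ * exp (-k⁻¹), contDiff_iff_contDiffAt.2 fun t => ?_, e0, ?_, fun t => ?_,
    fun t ht => ?_, h1, fun t => ?_⟩
  · by_cases h : t < 0
    · exact ContDiffAt.congr_of_eventuallyEq (smoothTransition.contDiffAt.comp t
        (contDiffAt_const.mul ((contDiffAt_id.div_const δ).log (div_ne_zero h.ne hδ.ne')))) (hn t h)
    · exact contDiffAt_const.congr_of_eventuallyEq (hp t h)
  · exact mul_lt_of_lt_one_right hδ (exp_lt_one_iff.2 (neg_neg_of_pos (inv_pos.2 k0)))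
  · by_cases h : t < 0
    · rw [show χ t = g t from if_pos h]
      exact ⟨smoothTransition.nonneg _, smoothTransition.le_one _⟩
    · rw [show χ t = 1 from if_neg h]
      exact ⟨zero_le_one, le_rfl⟩
  · refine (if_pos (by linarith)).trans (smoothTransition.zero_of_nonpos ?_)
    have h2 : 0 ≤ log (t / δ) := by
      rw [← log_neg_eq_log, ← neg_div]
      exact log_nonneg ((one_le_div hδ).2 (by linarith))
    have := mul_nonneg k0.le h2
    linarith
  · by_cases h : t < 0
    · have h2 : HasDerivAt g _ t := (st_diff _).comp t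
        ((((hasDerivAt_id t).div_const δ).log (div_ne_zero h.ne hδ.ne')).const_mul (-k))
      rw [(hn t h).deriv_eq, h2.deriv]
      have h3 : ∀ s : ℝ, t * (s * (-k * (1 / δ / (id t / δ)))) = -(k * s) := fun s => by
        have := h.ne
        have := hδ.ne'
        simp only [id]
        field_simp
      rw [h3, abs_neg, abs_mul, abs_of_pos k0]
      exact (mul_le_mul_of_nonneg_left (hb _) k0.le).trans_eq (div_mul_cancel₀ _ hL.ne')
    · rw [(hp t h).deriv_eq, deriv_const, mul_zero, abs_zero]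
      exact hκ.le

/-- a monotone interpolation between `t` and `δ (t - T)` -/
theorem exists_stretch {ε s : ℝ} (hε : 0 < ε) (hs : ε ≤ s) (T T' : ℝ) : ∃ δ₁, 0 < δ₁ ∧
    ∀ δ ∈ Ioc 0 δ₁, ∃ f : ℝ → ℝ, ContDiff ℝ ∞ f ∧ (∀ t ≤ -ε, f t = t) ∧
      (∀ t, -(ε / 2) ≤ t → f t = δ * (t - T)) ∧ (∀ t, 0 < deriv f t) ∧
      ∀ t ∈ Icc (-s) T', |f t| ≤ s := by
  have hD : 0 < |T| + |T'| + ε := by positivity
  refine ⟨ε / 2 / (|T| + |T'| + ε), by positivity, fun δ hδ => ?_⟩
  have hb : δ * (|T| + |T'| + ε) ≤ ε / 2 := (le_div_iff₀ hD).1 hδ.2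
  have hT := mul_le_mul_of_nonneg_left (le_abs_self T) hδ.1.le
  have hT2 := mul_le_mul_of_nonneg_left (neg_abs_le T) hδ.1.le
  have hT' := mul_nonneg hδ.1.le (abs_nonneg T')
  have hT0 := mul_nonneg hδ.1.le (abs_nonneg T)
  have hε' := mul_pos hδ.1 hε
  let ψ : ℝ → ℝ := fun t => smoothTransition ((t + ε) / (ε / 2))
  let f : ℝ → ℝ := fun t => t + ψ t * (δ * (t - T) - t)
  have f1 : ∀ t ≤ -ε, f t = t := fun t ht => by
    simp only [f, ψ]
    rw [smoothTransition.zero_of_nonpos
      (div_nonpos_of_nonpos_of_nonneg (by linarith) (half_pos hε).le), zero_mul, add_zero]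
  have f2 : ∀ t, -(ε / 2) ≤ t → f t = δ * (t - T) := fun t ht => by
    simp only [f, ψ]
    rw [smoothTransition.one_of_one_le ((one_le_div (half_pos hε)).2 (by linarith))]
    ring
  have fc : ContDiff ℝ ∞ f := contDiff_id.add ((smoothTransition.contDiff.comp
    ((contDiff_id.add contDiff_const).div_const _)).mul
    ((contDiff_const.mul (contDiff_id.sub contDiff_const)).sub contDiff_id))
  have fd : ∀ t, 0 < deriv f t := fun t => by
    have h1 : HasDerivAt ψ _ t := (st_diff _).comp t (((hasDerivAt_id t).add_const ε).div_const _)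
    have h2 : HasDerivAt f _ t := (hasDerivAt_id t).add (h1.mul
      ((((hasDerivAt_id t).sub_const T).const_mul δ).sub (hasDerivAt_id t)))
    rw [h2.deriv]
    have p0 : 0 ≤ ψ t := smoothTransition.nonneg _
    have p1 : ψ t ≤ 1 := smoothTransition.le_one _
    have p2 : 0 < 1 + ψ t * (δ * 1 - 1) := by
      rcases p0.eq_or_lt with h | h
      · rw [← h]; norm_num
      · nlinarith [mul_pos h hδ.1]
    have p3 : 0 ≤ deriv smoothTransition ((id t + ε) / (ε / 2)) * (1 / (ε / 2))
        * (δ * (t - T) - t) := by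
      by_cases h : (id t + ε) / (ε / 2) ∈ Icc (0 : ℝ) 1
      · have a1 := (div_le_one (half_pos hε)).1 h.2
        have a2 := (div_nonneg_iff.1 h.1).elim (fun a => a.1) fun a => absurd a.2 (by linarith)
        simp only [id] at a1 a2
        refine mul_nonneg (mul_nonneg smoothTransition.monotone.deriv_nonneg (by positivity)) ?_
        nlinarith [mul_nonneg hδ.1.le a2]
      · rw [st_deriv_zero h, zero_mul, zero_mul]
    simp only [id] at p3 ⊢
    linarith
  refine ⟨f, fc, f1, f2, fd, fun t ht => ?_⟩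
  have hm : Monotone f := (strictMono_of_deriv_pos fd).monotone
  have a1 := hm ht.1
  have a2 := hm (ht.2.trans (le_abs_self T'))
  rw [f1 _ (by linarith)] at a1
  rw [f2 |T'| (by linarith [abs_nonneg T'])] at a2
  refine abs_le.2 ⟨a1, a2.trans ?_⟩
  nlinarith

end Crest.Agent.X212.Sym24
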