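import Crest.Agent.X212.Sym24.Hop
import Crest.Agent.X212.Sym24.Cut

/-!
# X212 / Sym24, part 4 (helper24): normal form on the cylinder

`OO o = dt ∧ o`; `nf_cyl` : a finite family `pu (B q) - d (la q)` of pairwise positive two-forms
is brought into the form `pu (B q) + d (δ (t - T) α q)` on `t ≥ -ε'`.
-/

set_option autoImplicit false
set_option linter.unusedSectionVars false

open Set Filter Topology Function Module
open scoped ContDiff Manifold
open Crest.Agent.R208 Crest.Agent.R208.F Crest.Agent.R208.FI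
open Crest.Agent.X212.Dr59 Crest.Agent.X212.Int54 Crest.Agent.X212.Orx52

noncomputable section

namespace Crest.Agent.X212.Sym24

variable {E : Type*} [NormedAddCommGroup E] [NormedSpace ℝ E] [FiniteDimensional ℝ E]
  {H : Type*} [TopologicalSpace H] {I : ModelWithCorners ℝ E H}
  {M : Type*} [TopologicalSpace M] [ChartedSpace H M]

/-- the orientation `dt ∧ o` of `M × ℝ` -/
def OO (o : M → Ext E) : M × ℝ → Ext (E × ℝ) := dt E M * pu o

/-- a function of `t` -/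
def ft (M : Type*) (g : ℝ → ℝ) (p : M × ℝ) : ℝ := g p.2

theorem tp_OO (o : M → Ext E) (p : M × ℝ) : tp (E × ℝ) (OO o p) = kap E * tp E (o p.1) :=
  tp_dT_up _

theorem rat_OO (o : M → Ext E) (c : M × ℝ → Ext (E × ℝ)) (p : M × ℝ) :
    rat (OO o) c p = tp E (nc (c p)) / tp E (o p.1) := by
  rw [rat, tp_OO, tp_eq, mul_div_mul_left _ _ kap_ne]

theorem OO_neg (o : M → Ext E) : OO (-o) = -OO o := by
  funext p
  simp [OO, pu]

theorem nc_mul2 {a : Ext (E × ℝ)} (h : IsDeg 2 a) (b : Ext (E × ℝ)) :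
    nc (a * b) = nc a * dn b + nc b * dn a := by
  rw [nc_mul, inv2 (isDeg_dn h), comm2 (isDeg_dn h)]

theorem conv_pos {l a b : ℝ} (hl : l ∈ Icc (0 : ℝ) 1) (ha : 0 < a) (hb : 0 < b) :
    0 < (1 - l) * a + l * b := by
  rcases hl.1.eq_or_lt with h | h
  · rwa [← h, sub_zero, one_mul, zero_mul, add_zero]
  · exact add_pos_of_nonneg_of_pos (mul_nonneg (sub_nonneg.2 hl.2) ha.le) (mul_pos h hb)

theorem dT_mul_dT {a : Ext (E × ℝ)} (h : IsDeg 1 a) (b : Ext (E × ℝ)) :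
    dT E * a * (dT E * b) = 0 := by
  rw [mul_assoc, ← mul_assoc a, anti1 h isDeg_dT, neg_mul, mul_neg, mul_assoc, dT_dT, neg_zero]

variable [I.Boundaryless] [IsManifold I ∞ M]

theorem ori_OO {o : M → Ext E} (ho : Ori I o) : Ori (IR I) (OO o) :=
  ⟨fun p => (smAt_dt p).mul (smAt_pu (ho.sm _)),
    fun p => by rw [tp_OO]; exact mul_ne_zero kap_ne (ho.ne _)⟩

theorem contMDiff_ft {g : ℝ → ℝ} (hg : ContDiff ℝ ∞ g) : ContMDiff (IR I) 𝓘(ℝ, ℝ) ∞ (ft M g) :=
  hg.contMDiff.comp contMDiff_snd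

theorem smAt_ft {g : ℝ → ℝ} (hg : ContDiff ℝ ∞ g) {a : M × ℝ → Ext (E × ℝ)} {p : M × ℝ}
    (ha : SmAt (IR I) a p) : SmAt (IR I) (ft M g • a) p := ha.fsmul le_rfl (contMDiff_ft hg p)

theorem dM_ft {g : ℝ → ℝ} (hg : ContDiff ℝ ∞ g) {a : M × ℝ → Ext (E × ℝ)} {p : M × ℝ}
    (ha : SmAt (IR I) a p) :
    dM (IR I) (ft M g • a) p = deriv g p.2 • (dT E * a p) + g p.2 • dM (IR I) a p := by
  rw [dM_fsmul ne0 ((contMDiff_ft hg p).mdifferentiableAt ne0) ha, ← smul_mul_assoc,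
    ← df_comp_snd (I := I) (hg.differentiable ne0 p.2).hasDerivAt]
  rfl

theorem smooth_rat {o a : M → Ext E} {x : M} (ho : SmAt I o x) (h0 : tp E (o x) ≠ 0)
    (ha : SmAt I a x) : ContMDiffAt I 𝓘(ℝ, ℝ) ∞ (rat o a) x := by
  borelize E M
  exact contMDiffAt_rat le_rfl ho h0 ha

/-- a smooth function vanishing on the slice `t = 0` is `O(t)` -/
theorem loc_lip {u : M × ℝ → ℝ} {y : M} (hu : ContMDiffAt (IR I) 𝓘(ℝ, ℝ) ∞ u (y, 0))
    (h0 : ∀ x, u (x, 0) = 0) : ∃ C, 0 ≤ C ∧ ∀ᶠ p in 𝓝 (y, (0 : ℝ)), |u p| ≤ C * |p.2| := by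
  have h1 : ContDiffAt ℝ 1 (u ∘ Ψ I y) (extChartAt I y y, 0) := by
    refine ContMDiffAt.contDiffAt (ContMDiffAt.of_le (n := ∞)
      (ContMDiffAt.comp _ ?_ (contMDiffAt_Ψ (mem_extChartAt_target y))) (by simp))
    rwa [Ψ, extChartAt_to_inv]
  obtain ⟨K, S, hS, hK⟩ := h1.exists_lipschitzOnWith
  have c := continuousAt_extChartAt (I := I) y
  have c1 : ContinuousAt (fun p : M × ℝ => (extChartAt I y p.1, p.2)) (y, 0) :=
    (c.comp continuousAt_fst).prodMk continuousAt_snd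
  have c2 : ContinuousAt (fun p : M × ℝ => (extChartAt I y p.1, (0 : ℝ))) (y, 0) :=
    (c.comp continuousAt_fst).prodMk continuousAt_const
  refine ⟨K, K.2, ?_⟩
  filter_upwards [c1.eventually hS, c2.eventually hS,
    continuousAt_fst.eventually (extChartAt_source_mem_nhds (I := I) y)] with p h2 h3 h4
  have h := hK.dist_le_mul _ h2 _ h3
  simp only [comp_apply, Ψ, (extChartAt I y).left_inv h4, h0, Prod.dist_eq, dist_self,
    dist_zero_right, Real.norm_eq_abs, max_eq_right (abs_nonneg p.2)] at h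
  exact h

theorem ev_pos [CompactSpace M] {o : M → Ext E} (ho : Ori I o)
    {A D F A' D' F' : M × ℝ → Ext (E × ℝ)} (hA : Sm (IR I) univ A) (hD : Sm (IR I) univ D)
    (hF : Sm (IR I) univ F) (hA' : Sm (IR I) univ A') (hD' : Sm (IR I) univ D')
    (hF' : Sm (IR I) univ F') (h0 : ∀ y, F (y, 0) = 0) (h0' : ∀ y, F' (y, 0) = 0)
    (hFF : ∀ p, F p * F' p = 0)
    (hp : ∀ y, ∀ l ∈ Icc (0 : ℝ) 1, 0 < rat (OO o) ((A + l • D) * (A' + l • D')) (y, 0)) :
    ∀ᶠ z : ℝ × ℝ in 𝓝 (0, 0), ∀ y, ∀ l ∈ Icc (0 : ℝ) 1, ∀ k : ℝ, |z.2 * k| ≤ z.1 →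
      0 < rat (OO o) ((A + l • D + k • F) * (A' + l • D' + k • F')) (y, z.2) := by
  have hO := ori_OO ho
  have sm : ∀ {a : M × ℝ → Ext (E × ℝ)}, Sm (IR I) univ a → ∀ p,
      ContMDiffAt (IR I) 𝓘(ℝ, ℝ) ∞ (rat (OO o) a) p := fun ha p =>
    smooth_rat (hO.sm p) (hO.ne p) (ha p trivial)
  set g0 := rat (OO o) (A * A')
  set g1 := rat (OO o) (A * D' + D * A')
  set g2 := rat (OO o) (D * D')
  set u := rat (OO o) (A * F' + F * A')
  set v := rat (OO o) (D * F' + F * D')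
  have e : ∀ (l k : ℝ) p, rat (OO o) ((A + l • D + k • F) * (A' + l • D' + k • F')) p =
      g0 p + l * g1 p + l ^ 2 * g2 p + k * (u p + l * v p) := fun l k p => by
    simp only [g0, g1, g2, u, v, rat, Pi.mul_apply, Pi.add_apply, Pi.smul_apply, add_mul, mul_add,
      smul_mul_assoc, mul_smul_comm, hFF, map_add, map_smul, smul_eq_mul, smul_add, smul_zero,
      map_zero]
    ring
  have := (isCompact_univ.prod (isCompact_Icc (a := (0 : ℝ)) (b := 1))
    ).eventually_forall_of_forall_eventually (x₀ := ((0, 0) : ℝ × ℝ))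
    (P := fun z (w : M × ℝ) => ∀ k : ℝ, |z.2 * k| ≤ z.1 → 0 < g0 (w.1, z.2) + w.2 * g1 (w.1, z.2)
      + w.2 ^ 2 * g2 (w.1, z.2) + k * (u (w.1, z.2) + w.2 * v (w.1, z.2))) ?_
  · filter_upwards [this] with z hz y l hl k hk
    rw [e]
    exact hz (y, l) ⟨trivial, hl⟩ k hk
  rintro ⟨y, l⟩ ⟨-, hl⟩
  obtain ⟨C, hC, h1⟩ := loc_lip (sm ((hA.mul hF').add (hF.mul hA')) (y, 0)) fun x =>
    by simp [rat, h0, h0']
  obtain ⟨C', hC', h2⟩ := loc_lip (sm ((hD.mul hF').add (hF.mul hD')) (y, 0)) fun x =>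
    by simp [rat, h0, h0']
  let π : (ℝ × ℝ) × M × ℝ → M × ℝ := fun x => (x.2.1, x.1.2)
  have hπ : ContinuousAt π ((0, 0), y, l) := by fun_prop
  have c0 := ((sm (hA.mul hA') (y, 0)).continuousAt).comp_of_eq hπ rfl
  have c1 := ((sm ((hA.mul hD').add (hD.mul hA')) (y, 0)).continuousAt).comp_of_eq hπ rfl
  have c2 := ((sm (hD.mul hD') (y, 0)).continuousAt).comp_of_eq hπ rfl
  have c : ContinuousAt (fun x : (ℝ × ℝ) × M × ℝ => g0 (π x) + x.2.2 * g1 (π x)
      + x.2.2 ^ 2 * g2 (π x) - x.1.1 * (C + |x.2.2| * C')) ((0, 0), y, l) :=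
    ((c0.add (continuousAt_snd.snd.mul c1)).add ((continuousAt_snd.snd.pow 2).mul c2)).sub
      (by fun_prop)
  have hpos : 0 < g0 (y, 0) + l * g1 (y, 0) + l ^ 2 * g2 (y, 0) - 0 * (C + |l| * C') := by
    have h := hp y l hl
    have h' := e l 0 (y, 0)
    rw [zero_smul, zero_smul, add_zero, add_zero] at h'
    linarith
  filter_upwards [c.eventually (lt_mem_nhds hpos), hπ.eventually h1, hπ.eventually h2]
    with x a1 a2 a3 k hk
  have b1 : |k * (u (π x) + x.2.2 * v (π x))| ≤ x.1.1 * (C + |x.2.2| * C') := by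
    have b2 : |u (π x) + x.2.2 * v (π x)| ≤ |x.1.2| * (C + |x.2.2| * C') := by
      refine (abs_add_le _ _).trans ?_
      rw [abs_mul]
      have := mul_le_mul_of_nonneg_left a3 (abs_nonneg x.2.2)
      simp only [π] at a2 this ⊢
      linarith
    rw [abs_mul] at hk ⊢
    refine (mul_le_mul_of_nonneg_left b2 (abs_nonneg k)).trans ?_
    rw [← mul_assoc, mul_comm |k|]
    exact mul_le_mul_of_nonneg_right hk (by positivity)
  have := neg_abs_le (k * (u (π x) + x.2.2 * v (π x)))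
  simp only [π] at a1 b1 this ⊢
  linarith

theorem ev_lin [CompactSpace M] {a b : M → ℝ} (ha : Continuous a) (hb : Continuous b)
    (h : ∀ y, 0 < a y) : ∀ᶠ s : ℝ in 𝓝 0, ∀ y, 0 < a y + s * b y := by
  have := (isCompact_univ (X := M)).eventually_forall_of_forall_eventually (x₀ := (0 : ℝ))
    (P := fun s y => 0 < a y + s * b y) fun y _ => by
      have c : ContinuousAt (fun z : ℝ × M => a z.2 + z.1 * b z.2) (0, y) := by fun_prop
      exact c.eventually (lt_mem_nhds (by simpa using h y))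
  exact this.mono fun s hs y => hs y trivial

/-- the normal component of a two-form along the slice `t = 0` -/
def nq (w : M × ℝ → Ext (E × ℝ)) : M → Ext E := sl 0 (nf w)

theorem nq_apply (w : M × ℝ → Ext (E × ℝ)) (y : M) : nq w y = nc (w (y, 0)) := rfl

theorem smAt_nq {w : M × ℝ → Ext (E × ℝ)} {y : M} (h : SmAt (IR I) w (y, 0)) : SmAt I (nq w) y :=
  smAt_sl (smAt_nf h)

theorem isDeg_nq {k : ℕ} {w : M × ℝ → Ext (E × ℝ)} {y : M} (h : IsDeg (k + 1) (w (y, 0))) :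
    IsDeg k (nq w y) := isDeg_nc h

/-- positivity of a product of two-forms along the slice -/
theorem rat_nq (o : M → Ext E) {w : M × ℝ → Ext (E × ℝ)} {y : M} (h : IsDeg 2 (w (y, 0)))
    (w' : M × ℝ → Ext (E × ℝ)) :
    rat (OO o) (w * w') (y, 0) = rat o (nq w * sl 0 w' + nq w' * sl 0 w) y := by
  rw [rat_OO, Pi.mul_apply, nc_mul2 h]
  rfl

theorem dn_dM_zero {la : M × ℝ → Ext (E × ℝ)} {y : M} (h : SmAt (IR I) la (y, 0))
    (h0 : sl 0 la = 0) : dn (dM (IR I) la (y, 0)) = 0 := by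
  have := dM_sl h
  rw [h0, dM_zero] at this
  exact this.symm

/-- **normal form on the cylinder** -/
theorem nf_cyl [CompactSpace M] {ι : Type*} [Finite ι] {o : M → Ext E} (ho : Ori I o)
    {B α : ι → M → Ext E} {la : ι → M × ℝ → Ext (E × ℝ)}
    (hB : ∀ q, Sm I univ (B q)) (hB' : ∀ q, Dg 2 univ (B q))
    (hα : ∀ q, Sm I univ (α q)) (hα' : ∀ q, Dg 1 univ (α q))
    (hl : ∀ q, Sm (IR I) univ (la q)) (hl' : ∀ q, Dg 1 univ (la q)) (h0 : ∀ q, sl 0 (la q) = 0)
    (hp : ∀ q r y, 0 < rat (OO o)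
      ((pu (B q) - dM (IR I) (la q)) * (pu (B r) - dM (IR I) (la r))) (y, 0))
    (ha : ∀ q r y, 0 < rat o (α q * B r + α r * B q) y) {ε : ℝ} (hε : 0 < ε) (T T' : ℝ) :
    ∃ s ε' δ₁ : ℝ, 0 < ε' ∧ ε' < s ∧ s < ε ∧ 0 < δ₁ ∧ ∀ δ ∈ Ioc 0 δ₁,
      ∃ μ : ι → M × ℝ → Ext (E × ℝ), (∀ q, Sm (IR I) univ (μ q)) ∧ (∀ q, Dg 1 univ (μ q)) ∧
        (∀ q p, p.2 ≤ -s → μ q p = 0) ∧
        (∀ q p, -ε' ≤ p.2 → (la q - μ q) p = -((δ * (p.2 - T)) • pu (α q) p)) ∧
        ∀ q r p, p.2 ∈ Icc (-s) T' → 0 < rat (OO o) ((pu (B q) - dM (IR I) (la q - μ q)) *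
          (pu (B r) - dM (IR I) (la r - μ r))) p := by
  have sα : ∀ q, Sm (IR I) univ (pu (α q)) := fun q p _ => smAt_pu (hα q _ trivial)
  have dα : ∀ q, Dg 1 univ (pu (α q) : M × ℝ → _) := fun q p _ => isDeg_up (hα' q _ trivial)
  have sB : ∀ q, Sm (IR I) univ (pu (B q)) := fun q p _ => smAt_pu (hB q _ trivial)
  have dB : ∀ q, Dg 2 univ (pu (B q) : M × ℝ → _) := fun q p _ => isDeg_up (hB' q _ trivial)
  let θ : ι → M × ℝ → Ext (E × ℝ) := fun q => ft M id • pu (α q) + la q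
  have sθ : ∀ q, Sm (IR I) univ (θ q) := fun q p _ =>
    (smAt_ft contDiff_id (sα q p trivial)).add (hl q p trivial)
  have dθ : ∀ q, Dg 1 univ (θ q) := fun q => ((dα q).fsmul _).add (hl' q)
  let W : ι → M × ℝ → Ext (E × ℝ) := fun q => pu (B q) - dM (IR I) (la q)
  have sW : ∀ q, Sm (IR I) univ (W q) := fun q => (sB q).sub (hl q).dM
  have dW : ∀ q, Dg 2 univ (W q) := fun q => (dB q).sub ((hl' q).dM isOpen_univ)
  have eθ : ∀ q y, dM (IR I) (θ q) (y, 0) = dT E * up (α q y) + dM (IR I) (la q) (y, 0) :=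
    fun q y => by
      rw [dM_add ne0 (smAt_ft contDiff_id (sα q _ trivial)) (hl q _ trivial),
        dM_ft contDiff_id (sα q _ trivial), deriv_id, one_smul, id, zero_smul, add_zero]
      rfl
  have e1 : ∀ q y (l : ℝ), dn ((W q + l • dM (IR I) (θ q)) (y, 0)) = B q y := fun q y l => by
    simp [W, eθ, pu, dn_dM_zero (hl q _ trivial) (h0 q)]
  have e2 : ∀ q y (l : ℝ), nc ((W q + l • dM (IR I) (θ q)) (y, 0)) =
      (1 - l) • nc (W q (y, 0)) + l • α q y := fun q y l => by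
    simp only [W, eθ, pu, Pi.add_apply, Pi.sub_apply, Pi.smul_apply, map_add, map_sub, map_smul,
      nc_up, nc_dT_mul, dn_up]
    module
  have E1 : ∀ᶠ z : ℝ × ℝ in 𝓝 (0, 0), ∀ q r, ∀ y, ∀ l ∈ Icc (0 : ℝ) 1, ∀ k : ℝ, |z.2 * k| ≤ z.1 →
      0 < rat (OO o) ((W q + l • dM (IR I) (θ q) + k • (dt E M * θ q)) *
        (W r + l • dM (IR I) (θ r) + k • (dt E M * θ r))) (y, z.2) := by
    have z0 : ∀ q y, (dt E M * θ q) (y, 0) = 0 := fun q y => by
      have := congrFun (h0 q) y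
      rw [sl] at this
      rw [Pi.mul_apply, dt, dT_mul_eq]
      simp [θ, ft, this]
    refine eventually_all.2 fun q => eventually_all.2 fun r => ev_pos ho (sW q) (sθ q).dM
      (fun p _ => (smAt_dt p).mul (sθ q p trivial)) (sW r) (sθ r).dM
      (fun p _ => (smAt_dt p).mul (sθ r p trivial)) (z0 q) (z0 r)
      (fun p => dT_mul_dT (dθ q p trivial) _) fun y l hl => ?_
    have h1 : 0 < rat (OO o) (W q * W r) (y, 0) := hp q r y
    have h2 := ha q r y
    have d0 := e1 q y 0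
    have d1 := e1 r y 0
    rw [zero_smul, add_zero] at d0 d1
    rw [rat_OO, Pi.mul_apply, nc_mul2 (dW q _ trivial), d0, d1] at h1
    rw [rat_OO, Pi.mul_apply,
      nc_mul2 (((dW q).add (((dθ q).dM isOpen_univ).smul l)) _ trivial), e1, e1, e2, e2]
    simp only [rat, Pi.add_apply, Pi.mul_apply, add_mul, smul_mul_assoc, map_add, map_smul,
      smul_eq_mul] at h1 h2 ⊢
    refine (conv_pos hl h1 h2).trans_eq ?_
    ring
  have E2 : ∀ᶠ s : ℝ in 𝓝 0, ∀ q r y, 0 < rat o (α q * B r + α r * B q) y +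
      s * rat o (α q * dM I (α r) + α r * dM I (α q)) y := by
    have c : ∀ {a : M → Ext E}, Sm I univ a → Continuous (rat o a) := fun h =>
      continuous_iff_continuousAt.2 fun x => contAt_rat (ho.sm x) (ho.ne x) (h x trivial)
    exact eventually_all.2 fun q => eventually_all.2 fun r => ev_lin
      (c (((hα q).mul (hB r)).add ((hα r).mul (hB q))))
      (c (((hα q).mul (hα r).dM).add ((hα r).mul (hα q).dM))) (ha q r)
  obtain ⟨r1, r1p, E1⟩ := Metric.eventually_nhds_iff.1 E1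
  obtain ⟨r2, r2p, E2⟩ := Metric.eventually_nhds_iff.1 E2
  set s := min (min r1 r2) ε / 2 with hs
  have s0 : 0 < min (min r1 r2) ε := lt_min (lt_min r1p r2p) hε
  have s1 : s < r1 := (half_lt_self s0).trans_le ((min_le_left _ _).trans (min_le_left _ _))
  have s2 : s < r2 := (half_lt_self s0).trans_le ((min_le_left _ _).trans (min_le_right _ _))
  have s3 : s < ε := (half_lt_self s0).trans_le (min_le_right _ _)
  have sp : 0 < s := half_pos s0
  obtain ⟨χ, e, cχ, ep, es, χ1, χ2, χ3, χ4⟩ := exists_log sp sp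
  obtain ⟨δ₁, δp, hf⟩ := exists_stretch (half_pos ep) (by linarith : e / 2 ≤ s) T T'
  refine ⟨s, e / 2 / 2, δ₁, by positivity, by linarith, s3, δp, fun δ hδ => ?_⟩
  obtain ⟨f, cf, f1, f2, f3, f4⟩ := hf δ hδ
  have cg : ContDiff ℝ ∞ (f - id) := cf.sub contDiff_id
  let μ : ι → M × ℝ → Ext (E × ℝ) := fun q => ft M χ • θ q + ft M (f - id) • pu (α q)
  have sμ : ∀ q, Sm (IR I) univ (μ q) := fun q p _ =>
    (smAt_ft cχ (sθ q p trivial)).add (smAt_ft cg (sα q p trivial))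
  have m1 : ∀ q p, -e ≤ p.2 → (la q - μ q) p = (-(ft M f • pu (α q))) p := fun q p h => by
    simp only [μ, θ, ft, Pi.add_apply, Pi.sub_apply, Pi.neg_apply, Pi.smul_apply', χ3 _ h, id]
    module
  refine ⟨μ, sμ, fun q => ((dθ q).fsmul _).add ((dα q).fsmul _), fun q p h => ?_,
    fun q p h => ?_, fun q r p h => ?_⟩
  · simp [μ, ft, χ2 _ h, f1 p.2 (by linarith)]
  · rw [m1 q p (by linarith)]
    simp [ft, f2 _ h]
  rcases lt_or_ge p.2 (-(e / 2)) with h1 | h1
  · have m2 : ∀ q, (pu (B q) - dM (IR I) (la q - μ q)) p = (W q + χ p.2 • dM (IR I) (θ q) +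
        deriv χ p.2 • (dt E M * θ q)) p := fun q => by
      have : μ q =ᶠ[𝓝 p] ft M χ • θ q := by
        filter_upwards [continuousAt_snd.eventually (Iio_mem_nhds h1)] with x hx
        simp [μ, ft, f1 x.2 (le_of_lt hx)]
      rw [Pi.sub_apply, dM_sub ne0 (hl q p trivial) (sμ q p trivial), dM_congr this,
        dM_ft cχ (sθ q p trivial)]
      simp only [W, dt, Pi.add_apply, Pi.sub_apply, Pi.smul_apply, Pi.mul_apply]
      abel
    have := @E1 (s, p.2) (by
      rw [Prod.dist_eq, max_lt_iff, dist_zero_right, dist_zero_right, Real.norm_eq_abs,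
        Real.norm_eq_abs, abs_of_pos sp, abs_lt]
      exact ⟨s1, by linarith [h.1], by linarith⟩) q r p.1 _ (χ1 p.2) _ (χ4 p.2)
    rwa [rat, Pi.mul_apply, ← m2, ← m2] at this
  · have m3 : ∀ q, (pu (B q) - dM (IR I) (la q - μ q)) p = up (B q p.1 + f p.2 • dM I (α q) p.1) +
        deriv f p.2 • (dT E * up (α q p.1)) := fun q => by
      have : la q - μ q =ᶠ[𝓝 p] -(ft M f • pu (α q)) := by
        filter_upwards [continuousAt_snd.eventually
          (Ioi_mem_nhds (show -e < p.2 by linarith))] with x hx using m1 q x (le_of_lt hx)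
      rw [Pi.sub_apply, dM_congr this, dM_neg, Pi.neg_apply, dM_ft cf (sα q p trivial),
        dM_pu (hα q _ trivial)]
      simp only [pu, map_add, map_smul]
      abel
    have d2 : IsDeg 2 ((pu (B q) - dM (IR I) (la q - μ q)) p) := ((dB q).sub (((hl' q).sub
      (((dθ q).fsmul _).add ((dα q).fsmul _))).dM isOpen_univ)) p trivial
    have := mul_pos (f3 p.2) (@E2 (f p.2) (by
      rw [dist_zero_right, Real.norm_eq_abs]
      exact (f4 _ h).trans_lt s2) q r p.1)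
    rw [rat_OO, Pi.mul_apply, nc_mul2 d2, m3, m3]
    refine this.trans_eq ?_
    simp only [rat, Pi.add_apply, Pi.mul_apply, map_add, map_smul, map_mul, nc_up, nc_dT_mul, dn_up,
      dn_dT, zero_mul, smul_zero, add_zero, zero_add, mul_add, smul_mul_assoc, mul_smul_comm,
      smul_eq_mul]
    ring

end Crest.Agent.X212.Sym24
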