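import Crest.Agent.X212.Sym24.Star
import Crest.Agent.X212.Bb31.Push

/-!
# X212 / Sym24, part 6 (helper24): `Bb31.NfStmt` and `Bb31.JoinStmt`
-/

set_option autoImplicit false
set_option linter.unusedSectionVars false

open Set Filter Topology Function Module
open scoped ContDiff Manifold
open Crest.Agent.R208 Crest.Agent.R208.F Crest.Agent.R208.FI
open Crest.Agent.X212.Dr59 Crest.Agent.X212.Int54 Crest.Agent.X212.Orx52 Crest.Agent.X212.Cyl58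
open Crest.Agent.X212.Sep15 (EE CM End Box slab Jo)
open Crest.Agent.X212.Bb31 (Fm Cy En SP PP F1 Z2 sh Gd UC0 UC OC Ph BBR NfStmt JoinStmt)

noncomputable section

namespace Crest.Agent.X212.Sym24

section gen

variable {E : Type*} [NormedAddCommGroup E] [NormedSpace ℝ E] [FiniteDimensional ℝ E]
  {H : Type*} [TopologicalSpace H] {I : ModelWithCorners ℝ E H} [I.Boundaryless]
  {M : Type*} [TopologicalSpace M] [ChartedSpace H M] [IsManifold I ∞ M]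
  {E' : Type*} [NormedAddCommGroup E'] [NormedSpace ℝ E'] [FiniteDimensional ℝ E']
  {H' : Type*} [TopologicalSpace H'] {J : ModelWithCorners ℝ E' H'} [J.Boundaryless]
  {N : Type*} [TopologicalSpace N] [ChartedSpace H' N] [IsManifold J ∞ N]

theorem cl_pu {k : ℕ} {b : M → Ext E} (h : Cl I k univ b) : Cl (IR I) k univ (pu b) := by
  rw [← pm_fst (I := I)]
  exact h.pm (Mp.of_contMDiff contMDiff_fst (mapsTo_univ _ _))

/-- a closed form which is independent of `t` on a neck is extended over the end -/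
theorem exists_ext {j : M × ℝ → N} (hj : IsOE (IR I) J j)
    (hc : IsClosed (j '' (univ ×ˢ Ici 1))) {k : ℕ} {z : N → Ext E'} {b : M → Ext E}
    (hz : Cl J k univ z) (hb : Cl I k univ b)
    (h : ∀ p : M × ℝ, |p.2| < 1 → pm (IR I) J j z p = pu b p) :
    ∃ z', Cl J k univ z' ∧ (∀ x ∉ j '' (univ ×ˢ Ici 1), z' x = z x) ∧
      ∀ p : M × ℝ, -1 < p.2 → pm (IR I) J j z' p = pu b p := by
  obtain ⟨A, h1, h2, -, -, h3⟩ := Bb31.exists_patch' (a := pu b) (b := z)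
    ((Bb31.OE.of_oe hj).mono (isOpen_univ.prod (isOpen_Ioi (a := (-1 : ℝ)))) (subset_univ _))
    hc.isOpen_compl (fun x => (em _).symm.imp_right fun hx => image_mono
      (prod_mono_right (Ici_subset_Ioi.2 (by norm_num))) hx)
    fun p hp hp' => h p (abs_lt.2 ⟨hp.2, lt_of_not_ge fun h => hp' ⟨p, ⟨trivial, h⟩, rfl⟩⟩)
  exact ⟨A, h3 k (hz.mono (subset_univ _)) ((cl_pu hb).mono (subset_univ _)), h1,
    fun p hp => h2 p ⟨trivial, hp⟩⟩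

theorem rat_OO_dt (o : M → Ext E) (c : M × ℝ → Ext (E × ℝ)) (p : M × ℝ) :
    rat (OO o) (dt E M * c) p = rat o (sl p.2 c) p.1 := by
  rw [rat_OO, Pi.mul_apply, dt, nc_dT_mul]
  rfl

end gen

theorem exists_pos_lt {ι : Type*} [Finite ι] {ε : ι → ℝ} (h : ∀ q, 0 < ε q) :
    ∃ e, 0 < e ∧ ∀ q, e < ε q := by
  obtain ⟨e, h1, h2⟩ := ((eventually_all.2 fun q => Ioo_mem_nhdsGT (h q)).and
    self_mem_nhdsWithin).exists
  exact ⟨e, h2, fun q => (h1 q).2⟩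

variable {Y : CM 3}

theorem en_unif {C : End Y} {ι : Type} [Finite ι] {a : ι → Fm 4 C.X} {b : ι → Fm 3 Y}
    (h : ∀ q, En C.j (a q) (b q)) :
    ∃ ε, 0 < ε ∧ ∀ q p, -ε < p.2 → pm (IR (𝓡 3)) (𝓡 4) C.j (a q) p = pu (b q) p := by
  choose ε h0 h using h
  obtain ⟨e, h1, h2⟩ := exists_pos_lt h0
  exact ⟨e, h1, fun q p hp => h q p ((neg_lt_neg (h2 q)).trans hp)⟩

theorem z2_of_en {C : End Y} {a : Fm 4 C.X} {b : Fm 3 Y} (ha : Z2 a) (h : En C.j a b) : Z2 b := by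
  obtain ⟨ε, hε, h⟩ := h
  have e : b = pm (𝓡 3) (IR (𝓡 3)) (fun x => (x, (0 : ℝ))) (pm (IR (𝓡 3)) (𝓡 4) C.j a) := by
    rw [pm_inl]
    funext y
    rw [sl, h _ (neg_neg_of_pos hε), pu, dn_up]
  rw [e]
  exact (ha.pm (Mp.of_contMDiff C.oe.contMDiff (mapsTo_univ _ univ))).pm
    (Mp.of_contMDiff (contMDiff_id.prodMk contMDiff_const) (mapsTo_univ _ univ))

theorem same_of_pp {C : End Y} {O : Fm 4 C.X} {ι : Type} {ζ la : ι → Fm 4 C.X} {T : ℝ}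
    (h : PP O (fun q => ζ q - dM (𝓡 4) (la q)) (C.K T)) (q r : ι) :
    SameOn O ((ζ q - dM (𝓡 4) (la q)) * (ζ r - dM (𝓡 4) (la r))) (C.j '' (univ ×ˢ Ioi T))ᶜ :=
  fun x hx => pos_rat.1 (h q r x hx)

theorem nfStmt : NfStmt := by
  rintro Y C o O ho - hO ι _ ζ B hζ hE ⟨la, l1, l2, l3⟩
  obtain ⟨ε, hε, hZ⟩ := en_unif hE
  have hB := fun q => z2_of_en (hζ q) (hE q)
  refine ⟨fun q => nn (𝓡 3) (𝓡 4) C.j (B q) (la q),
    fun q => ⟨sm_nn C.oe (hB q).sm (l1 q).sm, dg_nn (hB q).dg (l1 q).dg⟩,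
    fun q r p => pos_rat.2 (same_nn C.oe hO (fun q => (hB q).dg)
      (fun q y => hZ q _ (neg_neg_of_pos hε)) (fun q => (l1 q).sm) (fun q => (l1 q).dg) l2
      (same_of_pp l3) q r p trivial), fun α hα pα T T' => ?_⟩
  obtain ⟨ε', δ₁, a1, -, a2, h⟩ := nf_star C.oe C.isClosed_Ici ho hO hε (fun q => (hB q).sm)
    (fun q => (hB q).dg) (fun q => (hα q).sm) (fun q => (hα q).dg) hZ (fun q => (l1 q).sm)
    (fun q => (l1 q).dg) l2 (same_of_pp l3) (fun q r p _ => pos_rat.1 (pα q r p)) T T'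
  refine ⟨ε', a1, δ₁, a2, fun δ h1 h2 => ?_⟩
  obtain ⟨l, b1, b2, -, b3, b4⟩ := h δ ⟨h1, h2⟩
  exact ⟨l, fun q => ⟨b1 q, b2 q⟩, fun q p hp => (b3 q p hp.le).trans (neg_smul _ _).symm,
    fun q r x hx => pos_rat.2 (b4 q r x hx)⟩

theorem uc0 {C : End Y} {O : Fm 4 C.X} {A D : Set (Fm 3 Y)} (h : UC C O A D) : UC0 C O A D := by
  have e : (sh C 0).j = C.j := funext fun p => by simp [sh]
  have := h 0
  unfold UC0 Gd End.K at this ⊢
  rw [e] at this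
  exact this

theorem jg {C₁ C₂ : End Y} {X : CM 4} (J : Jo C₁ C₂ X) : Jg (𝓡 3) (𝓡 4) C₁.j C₂.j J.i₁ J.i₂ :=
  ⟨C₁.oe, C₂.oe, C₁.isClosed_Ici, C₂.isClosed_Ici, J.o₁, J.o₂, J.cov, J.eq⟩

/-- one side of the join -/
theorem side {C : End Y} {O : Fm 4 C.X} {A : Set (Fm 3 Y)} (h : UC C O A {0}) {β : Fm 3 Y}
    (hβ : Z2 β) (hA : β ∈ A) {ι : Type} [Finite ι] {z : ι → Fm 4 C.X} (hz : ∀ q, Z2 (z q))
    (e : ∀ q (p : Y × ℝ), |p.2| < 1 → pm (IR (𝓡 3)) (𝓡 4) C.j (z q) p = pu β p) :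
    ∃ (Z la : ι → Fm 4 C.X) (v : Fm 4 C.X) (ε : ℝ), 0 < ε ∧ ε ≤ 1 ∧ Z2 v ∧
      (∀ p : Y × ℝ, -ε < p.2 → pm (IR (𝓡 3)) (𝓡 4) C.j v p = 0) ∧
      (∀ q, ∀ x ∉ C.j '' (univ ×ˢ Ici 1), Z q x = z q x + v x) ∧
      (∀ q (p : Y × ℝ), -ε < p.2 → pm (IR (𝓡 3)) (𝓡 4) C.j (Z q) p = pu β p) ∧
      (∀ q, F1 (la q)) ∧ (∀ q, sl 0 (pm (IR (𝓡 3)) (𝓡 4) C.j (la q)) = 0) ∧
      PP O (fun q => Z q - dM (𝓡 4) (la q)) (C.K 0) := by
  choose z' z1 z2 z3 using fun q => exists_ext C.oe (C.isClosed_Ici 1) (hz q) hβ (e q)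
  obtain ⟨d, hd, v, v1, ⟨ε, hε, v2⟩, la, l1, l2, l3⟩ := uc0 h ι z' (fun _ => β) z1 (fun _ => hA)
    fun q => ⟨1, one_pos, z3 q⟩
  obtain rfl : d = 0 := hd
  have v3 : ∀ p : Y × ℝ, -min ε 1 < p.2 → pm (IR (𝓡 3)) (𝓡 4) C.j v p = 0 := fun p hp =>
    (v2 p ((neg_le_neg (min_le_left _ _)).trans_lt hp)).trans (map_zero up)
  refine ⟨fun q => z' q + v, la, v, min ε 1, lt_min hε one_pos, min_le_right _ _, v1, v3,
    fun q x hx => congrArg (· + v x) (z2 q x hx), fun q p hp => ?_, l1, l2, l3⟩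
  rw [pm_add, Pi.add_apply, v3 p hp, z3 q p ((neg_le_neg (min_le_right _ _)).trans_lt hp), add_zero]

theorem tau_nonneg {R : CM 2} {o β τ : Fm 3 Y} {oR : Fm 2 R} {b : R × ℝ → Y} {k : ℝ → ℝ}
    (hR : Ori (𝓡 2) oR) (hβ : Z2 β) (hb : Box b) (hc : Cy oR o b) (hs : SP oR b β (Ioo (-1) 1))
    (hk : ∀ y, 0 ≤ k y) (hτ : ∀ p, pm (IR (𝓡 2)) (𝓡 3) b τ p = k p.2 • dT (EE 2))
    (h0 : ∀ p ∉ slab b (Icc (-2⁻¹) 2⁻¹), τ p = 0) {c : Fm 3 Y} (hc' : Sm (𝓡 3) univ c) :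
    ∀ᶠ s : ℝ in 𝓝 0, ∀ y, 0 ≤ rat o (τ * (β + s • c)) y := by
  have hO := ori_OO hR
  have ct : ∀ {a : Fm 3 Y}, Sm (𝓡 3) univ a →
      Continuous (rat (OO oR) (dt (EE 2) R * pm (IR (𝓡 2)) (𝓡 3) b a)) := fun ha =>
    continuous_iff_continuousAt.2 fun p => contAt_rat (hO.sm p) (hO.ne p)
      ((smAt_dt p).mul (SmAt.pm (hb.contMDiff p) (ha _ trivial)))
  have c1 := ct hβ.sm
  have c2 := ct hc'
  have := ((isCompact_univ (X := R)).prod (isCompact_Icc (a := (-2⁻¹ : ℝ)) (b := 2⁻¹))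
    ).eventually_forall_of_forall_eventually (x₀ := (0 : ℝ))
    (P := fun s p => 0 < rat (OO oR) (dt (EE 2) R * pm (IR (𝓡 2)) (𝓡 3) b β) p +
      s * rat (OO oR) (dt (EE 2) R * pm (IR (𝓡 2)) (𝓡 3) b c) p) fun p hp => by
      have c : ContinuousAt (fun z : ℝ × R × ℝ =>
          rat (OO oR) (dt (EE 2) R * pm (IR (𝓡 2)) (𝓡 3) b β) z.2 +
          z.1 * rat (OO oR) (dt (EE 2) R * pm (IR (𝓡 2)) (𝓡 3) b c) z.2) (0, p) := by fun_prop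
      refine c.eventually (lt_mem_nhds ?_)
      simp only [zero_mul, add_zero, rat_OO_dt]
      exact hs p.1 p.2 ⟨by linarith [hp.2.1], by linarith [hp.2.2]⟩
  filter_upwards [this] with s hs y
  by_cases hy : y ∈ slab b (Icc (-2⁻¹) 2⁻¹)
  · obtain ⟨p, hp, rfl⟩ := hy
    refine Bb31.nonneg_ld (hb.loc p) (hc p trivial) ((mul_nonneg (hk p.2) (hs p hp).le).trans_eq ?_)
    simp only [rat, OO, dt, pm_mul, pm_add, pm_smul, hτ, Pi.mul_apply, Pi.add_apply, Pi.smul_apply,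
      mul_add, smul_mul_assoc, mul_smul_comm, map_add, map_smul, smul_eq_mul]
    ring
  · simp [rat, h0 y hy]

theorem joinStmt : JoinStmt := by
  rintro Y R C₁ C₂ X J o β τ A₁ A₂ oR b k ho hR ⟨O₁, o1, c1, u1⟩ ⟨O₂, o2, c2, u2⟩ a1 a2 hβ hb hc hs
    hτ hk eτ zτ
  have G := jg J
  obtain ⟨O, hO, s1, s2⟩ := G.exists_ori o1 o2 c1 c2
  have hn := J.o₁.comp C₁.oe
  have en : ∀ a : Fm 4 X, pm (IR (𝓡 3)) (𝓡 4) C₁.j (pm (𝓡 4) (𝓡 4) J.i₁ a) =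
      pm (IR (𝓡 3)) (𝓡 4) (J.i₁ ∘ C₁.j) a := pm_ld_comp J.o₁.loc C₁.oe.loc
  have cO : SameOn (pm (IR (𝓡 3)) (𝓡 4) C₁.j (pm (𝓡 4) (𝓡 4) J.i₁ O)) (OO o) univ :=
    same_trans (same_pm s1 (fun y _ => C₁.oe.loc y) (mapsTo_univ _ _)) c1
  have cO' : SameOn (pm (IR (𝓡 3)) (𝓡 4) (J.i₁ ∘ C₁.j) O) (OO o) univ := en O ▸ cO
  refine ⟨O, hO, cO', fun ι _ ζ hζ he => ?_⟩
  choose l l1 l2 _ l3 using fun q => exists_nrm hn (hζ q) hβ.dg (he q) 1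
  have z : ∀ q, Z2 (ζ q - dM (𝓡 4) (l q)) := fun q => (hζ q).sub (cl_dM isOpen_univ (l1 q) (l2 q))
  obtain ⟨Z₁, la₁, v₁, ε₁, p1, p2, p3, p4, p5, p6, p7, p8, p9⟩ := side u1 hβ a1
    (fun q => (z q).pm (Mp.of_contMDiff J.o₁.contMDiff (mapsTo_univ _ univ)))
    fun q p hp => by rw [en, l3 q p hp]
  obtain ⟨Z₂, la₂, v₂, ε₂, q1, q2, q3, q4, q5, q6, q7, q8, q9⟩ := side u2 hβ a2
    (fun q => (z q).pm (Mp.of_contMDiff J.o₂.contMDiff (mapsTo_univ _ univ)))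
    fun q p hp => by
      rw [G.symm.pm_neck, en, pm_congr_right (l3 q (fl p) (by rwa [fl, abs_neg])), pm_fl_pu]
  have m1 := min_le_left ε₁ ε₂
  have m2 := min_le_right ε₁ ε₂
  have mp := lt_min p1 q1
  obtain ⟨v, v1, v2, v3⟩ := G.patch_cl mp p3 q3 fun p hp => by
    obtain ⟨h1, h2⟩ := abs_lt.1 hp
    rw [p4 p (by linarith), pm_apply, q4 (fl p) (neg_lt_neg (h2.trans_le m2)), map_zero]
  have vn : ∀ p : Y × ℝ, |p.2| < min ε₁ ε₂ → pm (IR (𝓡 3)) (𝓡 4) (J.i₁ ∘ C₁.j) v p = 0 :=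
    fun p hp => by
      obtain ⟨h1, h2⟩ := abs_lt.1 hp
      rw [← en, pm_congr_right (v2 _ (notMem_Ici C₁.oe h2)), p4 p (by linarith)]
  have sub : ∀ {C : End Y} {T : ℝ}, 0 < T → ∀ x ∉ C.j '' (univ ×ˢ Ioi 0),
      x ∉ C.j '' (univ ×ˢ Ici T) := fun h x hx h' =>
    hx (image_mono (prod_mono_right (Ici_subset_Ioi.2 h)) h')
  have r1 := fun q r => same_trans (s1.mono (subset_univ _)) (same_of_pp p9 q r)
  let α : ι → Fm 3 Y := fun q => nn (𝓡 3) (𝓡 4) C₁.j β (la₁ q)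
  have sα : ∀ q, Sm (𝓡 3) univ (α q) := fun q => sm_nn C₁.oe hβ.sm (p7 q).sm
  obtain ⟨m, η, δ, k1, k2, k3, k4, k5, k6⟩ := G.join (B := fun _ => β) (α := α)
    (Z := fun q => ζ q - dM (𝓡 4) (l q) + v) ho cO mp (fun _ => hβ.sm) (fun _ => hβ.dg) sα
    (fun q => dg_nn hβ.dg (p7 q).dg)
    (same_nn (B := fun _ => β) C₁.oe cO (fun _ => hβ.dg) (fun q y => p6 q _ (neg_neg_of_pos p1))
      (fun q => (p7 q).sm) (fun q => (p7 q).dg) p8 r1)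
    (fun q x hx => by rw [pm_add, Pi.add_apply, v2 x (sub mp x hx), p5 q x (sub one_pos x hx)])
    (fun q x hx => by rw [pm_add, Pi.add_apply, v3 x (sub mp x hx), q5 q x (sub one_pos x hx)])
    (fun q p hp => p6 q p (by linarith)) (fun q p hp => q6 q p (by linarith))
    (fun q => (p7 q).sm) (fun q => (p7 q).dg) (fun q => (q7 q).sm) (fun q => (q7 q).dg) p8 q8 r1
    fun q r => same_trans (s2.mono (subset_univ _)) (same_of_pp q9 q r)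
  have ew : ∀ q, ζ q + v - dM (𝓡 4) (l q + m q) = ζ q - dM (𝓡 4) (l q) + v - dM (𝓡 4) (m q) :=
    fun q => funext fun x => by
      simp only [Pi.sub_apply, Pi.add_apply, dM_add ne0 (l1 q x trivial) (k3 q x trivial)]
      abel
  obtain ⟨r, r0, hr⟩ := Metric.eventually_nhds_iff.1 (eventually_all.2 fun q =>
    tau_nonneg hR hβ hb hc hs hk eτ zτ (sα q).dM)
  obtain ⟨e, e0, he⟩ := exists_pos_lt (ε := ![η, min ε₁ ε₂, r / δ])
    (Fin.forall_fin_succ.2 ⟨k1, Fin.forall_fin_two.2 ⟨mp, div_pos r0 k2⟩⟩)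
  have e1 : e < η := he 0
  have e2 : e < min ε₁ ε₂ := he 1
  have e3 : e < r / δ := he 2
  let f : ContDiffBump (0 : ℝ) := ⟨e / 2, e, half_pos e0, half_lt_self e0⟩
  let g := f.normed MeasureTheory.volume
  refine ⟨v, fun q => l q + m q, g, psh (IR (𝓡 3)) (𝓡 4) (J.i₁ ∘ C₁.j)
    (ft Y g • (dt (EE 3) Y * pu τ)), v1, funext fun y => ?_,
    fun q => ⟨(l1 q).add (k3 q), (l2 q).add (k4 q)⟩, ⟨f.contDiff_normed, ?_, f.integral_normed,
      fun p => by rw [pm_psh hn]; rfl, fun x hx => psh_of_notMem hx⟩,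
    fun q r x _ => ?_, fun q x => ?_⟩
  · rw [sl, vn _ (by simpa using mp), map_zero, Pi.zero_apply]
  · rw [f.tsupport_normed_eq, Real.closedBall_eq_Icc, zero_sub, zero_add]
    exact Icc_subset_Ioo (neg_lt_neg (by linarith)) (by linarith)
  · simp only [ew]
    exact pos_rat.2 (k6 q r x trivial)
  by_cases hx : x ∈ range (J.i₁ ∘ C₁.j)
  swap
  · simp [rat, psh_of_notMem hx]
  obtain ⟨p, rfl⟩ := hx
  refine Bb31.nonneg_ld (o' := OO o) (hn.loc p) (cO' p trivial) ?_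
  rw [pm_mul, pm_psh hn]
  by_cases hg : g p.2 = 0
  · simp [rat, ft, hg]
  have t1 : |p.2| < e := by
    have : p.2 ∈ Function.support g := hg
    rwa [f.support_normed_eq, mem_ball_zero_iff] at this
  have w : pm (IR (𝓡 3)) (𝓡 4) (J.i₁ ∘ C₁.j) (ζ q + v - dM (𝓡 4) (l q + m q)) p =
      up (β p.1 + (δ * p.2) • dM (𝓡 3) (α q) p.1) + δ • (dT (EE 3) * up (α q p.1)) := by
    have ev : pm (IR (𝓡 3)) (𝓡 4) (J.i₁ ∘ C₁.j) (m q) =ᶠ[𝓝 p] -(ft Y (δ * ·) • pu (α q)) := by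
      filter_upwards [(continuous_snd.abs.tendsto p).eventually (Iio_mem_nhds (t1.trans e1))]
        with x hx
      rw [← en, k5 q x hx]
      rfl
    rw [ew, pm_sub, pm_add, Pi.sub_apply, Pi.add_apply, l3 q p (by linarith), vn p (by linarith),
      ← dM_pm ne0 (hn.contMDiff p) (k3 q _ trivial), dM_congr ev, dM_neg, Pi.neg_apply,
      dM_ft (g := (δ * ·)) (contDiff_const.mul contDiff_id) (smAt_pu (sα q _ trivial)), dM_pu (sα q _ trivial)]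
    simp only [pu, map_add, map_smul, deriv_const_mul_id]
    abel
  have t2 := @hr (δ * p.2) (by
    rw [dist_zero_right, Real.norm_eq_abs, abs_mul, abs_of_pos k2, ← lt_div_iff₀' k2]
    exact t1.trans e3) q p.1
  refine (mul_nonneg (show 0 ≤ g p.2 from f.nonneg_normed p.2) t2).trans_eq ?_
  have d2 : IsDeg 2 (β p.1 + (δ * p.2) • dM (𝓡 3) (α q) p.1) := (hβ.dg _ trivial).add
    (((dg_nn hβ.dg (p7 q).dg).dM isOpen_univ _ trivial).smul _)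
  rw [rat_OO, Pi.mul_apply, w, rat]
  simp only [ft, dt, pu, Pi.mul_apply, Pi.add_apply, Pi.smul_apply, Pi.smul_apply']
  rw [mul_smul_comm, add_mul, smul_mul_assoc, dT_mul_dT (isDeg_up (dg_nn hβ.dg (p7 q).dg _ trivial)),
    smul_zero, add_zero, map_smul, nc_up_mul, nc_dT_mul, dn_up, inv2 d2, comm2 d2, map_smul,
    smul_eq_mul, mul_div_assoc]

end Crest.Agent.X212.Sym24
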