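import Crest.Agent.X212.Orx52.Gen
import Crest.Agent.X212.Dr59.Coh

/-!
# X212 / Sym24, part 1 (helper24): algebra of forms on `E × ℝ`

`dT`, `up`, `dn`, `eT`, `nc`; `dec : c = up (dn c) + dT * up (nc c)`; `tp_dT_up`, `sq_two`.
-/

set_option autoImplicit false
set_option linter.unusedSectionVars false

open Set Filter Topology Function Module
open scoped ContDiff Manifold
open Crest.Agent.R208 Crest.Agent.R208.F Crest.Agent.R208.FI
open Crest.Agent.X212.Dr59 Crest.Agent.X212.Int54

noncomputable section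

namespace Crest.Agent.X212.Sym24

variable {E : Type*} [NormedAddCommGroup E] [NormedSpace ℝ E] [FiniteDimensional ℝ E]

/-- the normed path to the group structure of `E × ℝ` (fast unification with `Ext ?E`) -/
scoped instance (priority := high) acgP : AddCommGroup (E × ℝ) := NormedAddCommGroup.toAddCommGroup

/-- the normed path to the module structure of `E × ℝ` -/
scoped instance (priority := high) modP : Module ℝ (E × ℝ) := NormedSpace.toModule

/-! ### general facts -/

theorem eq_zero_of_deg {k : ℕ} {c : Ext E} (h : IsDeg k c) (hk : finrank ℝ E < k) : c = 0 := by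
  refine T.ext_evA fun q => ?_
  rw [map_zero]
  by_cases hq : q = k
  · subst hq
    ext w
    refine AlternatingMap.map_linearDependent _ _ fun hw => ?_
    have := hw.fintype_card_le_finrank
    rw [Fintype.card_fin] at this
    omega
  · exact h q hq

theorem isDeg_vol0 : IsDeg (finrank ℝ E) (vol0 E) := IsDeg.iMulti _

theorem eq_tp_smul {c : Ext E} (h : IsDeg (finrank ℝ E) c) : c = tp E c • vol0 E := by
  refine T.ext_evA fun q => ?_
  by_cases hq : q = finrank ℝ E
  · subst hq
    ext w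
    rw [map_smul, AlternatingMap.smul_apply, evA_top, evA_top, tp_vol0, smul_eq_mul]
    ring
  · rw [h q hq, (isDeg_vol0.smul _) q hq]

theorem eq_zero_of_tp {c : Ext E} (h : IsDeg (finrank ℝ E) c) (h0 : tp E c = 0) : c = 0 := by
  rw [eq_tp_smul h, h0, zero_smul]

theorem comm_of_inv {c : Ext E} (h : F.inv c = c) (x : Ext E) : x * c = c * x := by
  induction x using F.ind with
  | h0 r => exact Algebra.commutes r c
  | hadd x y hx hy => rw [add_mul, mul_add, hx, hy]
  | hmul x l hx => rw [mul_assoc, hx, ← mul_assoc, io_mul, h, mul_assoc]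

theorem comm2 {c : Ext E} (h : IsDeg 2 c) (x : Ext E) : x * c = c * x :=
  comm_of_inv (by rw [inv_of_deg h]; simp) x

theorem io_anti1 (l : Dual ℝ E) {a : Ext E} (h : IsDeg 1 a) : a * io l = -(io l * a) := by
  rw [io_mul, inv_of_deg h]
  simp

theorem exists_io {a : Ext E} (h : IsDeg 1 a) : ∃ l : Dual ℝ E, a = io l := by
  have u : ∀ v : E, Function.update (fun _ : Fin 1 => (0 : E)) 0 v = fun _ => v := fun v => by
    funext i
    rw [Subsingleton.elim i 0, update_self]
  let l : Dual ℝ E :=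
    { toFun := fun v => evA E 1 a fun _ => v
      map_add' := fun v w => by
        have := (evA E 1 a).map_update_add (fun _ => (0 : E)) 0 v w
        rwa [u, u, u] at this
      map_smul' := fun r v => by
        have := (evA E 1 a).map_update_smul (fun _ => (0 : E)) 0 r v
        rwa [u, u] at this }
  refine ⟨l, T.ext_evA fun q => ?_⟩
  by_cases hq : q = 1
  · subst hq
    ext w
    rw [evA_io]
    show _ = evA E 1 a fun _ => w 0
    congr 1
    funext i
    rw [Subsingleton.elim i 0]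
  · rw [h q hq, isDeg_io l q hq]

theorem sq1 {a : Ext E} (h : IsDeg 1 a) : a * a = 0 := by
  obtain ⟨l, rfl⟩ := exists_io h
  exact io_sq l

theorem anti1 {a b : Ext E} (h : IsDeg 1 a) (h' : IsDeg 1 b) : a * b = -(b * a) := by
  obtain ⟨l, rfl⟩ := exists_io h'
  exact io_anti1 l h

/-! ### the splitting of `E × ℝ` -/

variable (E) in
/-- the form `dt` -/
def dT : Ext (E × ℝ) := io (LinearMap.snd ℝ E ℝ)

variable (E) in
/-- the vector `∂/∂t` -/
def eT : E × ℝ := (0, 1)

/-- pull-back by the projection -/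
def up : Ext E →ₐ[ℝ] Ext (E × ℝ) := pb (LinearMap.fst ℝ E ℝ)

/-- restriction to a slice -/
def dn : Ext (E × ℝ) →ₐ[ℝ] Ext E := pb (LinearMap.inl ℝ E ℝ)

/-- the `dt` component -/
def nc : Ext (E × ℝ) →ₗ[ℝ] Ext E := (dn (E := E)).toLinearMap ∘ₗ ii (eT E)

theorem nc_apply (c : Ext (E × ℝ)) : nc c = dn (ii (eT E) c) := rfl

theorem isDeg_dT : IsDeg 1 (dT E) := isDeg_io _

theorem isDeg_up {k : ℕ} {c : Ext E} (h : IsDeg k c) : IsDeg k (up c) := h.pb _

theorem isDeg_dn {k : ℕ} {c : Ext (E × ℝ)} (h : IsDeg k c) : IsDeg k (dn c) := h.pb _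

theorem isDeg_nc {k : ℕ} {c : Ext (E × ℝ)} (h : IsDeg (k + 1) c) : IsDeg k (nc c) :=
  (h.ii _).pb _

theorem isDeg_dT_mul {k : ℕ} {c : Ext (E × ℝ)} (h : IsDeg k c) : IsDeg (k + 1) (dT E * c) :=
  h.io_mul _

@[simp] theorem dT_sq : dT E * dT E = 0 := io_sq _

theorem dT_dT (c : Ext (E × ℝ)) : dT E * (dT E * c) = 0 := by rw [← mul_assoc, dT_sq, zero_mul]

@[simp] theorem dn_up (c : Ext E) : dn (up c) = c := by
  rw [dn, up, pb_comp, LinearMap.fst_comp_inl]
  exact pb_id c

@[simp] theorem dn_dT : dn (dT E) = 0 := by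
  rw [dn, dT, pb_io, LinearMap.snd_comp_inl, map_zero]

@[simp] theorem ii_up (c : Ext E) : ii (eT E) (up c) = 0 := by
  rw [up, ii_pb]
  simp [eT]

theorem ii_dT_mul (c : Ext (E × ℝ)) : ii (eT E) (dT E * c) = c - dT E * ii (eT E) c := by
  rw [dT, ii_io_mul]
  simp [eT]

@[simp] theorem nc_up (c : Ext E) : nc (up c) = 0 := by rw [nc_apply, ii_up, map_zero]

@[simp] theorem nc_dT_mul (c : Ext (E × ℝ)) : nc (dT E * c) = dn c := by
  rw [nc_apply, ii_dT_mul, map_sub, map_mul, dn_dT, zero_mul, sub_zero]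

theorem nc_up_mul (a : Ext E) (c : Ext (E × ℝ)) : nc (up a * c) = F.inv a * nc c := by
  rw [nc_apply, ii_mul, ii_up, zero_mul, zero_add, map_mul, nc_apply, up, ← pb_inv]
  congr 1
  exact dn_up _

theorem io_dec (l : Dual ℝ (E × ℝ)) : io l = up (dn (io l)) + l (eT E) • dT E := by
  rw [dn, up, pb_io, pb_io, dT, ← map_smul, ← map_add]
  congr 1
  refine LinearMap.ext fun v => ?_
  have : v = (v.1, 0) + v.2 • eT E := by ext <;> simp [eT]
  conv_lhs => rw [this, map_add, map_smul]
  simp [mul_comm]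

/-- **splitting** of a form on `E × ℝ` -/
theorem dec (c : Ext (E × ℝ)) : c = up (dn c) + dT E * up (nc c) := by
  induction c using F.ind with
  | h0 r => simp [nc_apply, AlgHom.commutes]
  | hadd x y hx hy =>
    simp only [map_add, mul_add]
    conv_lhs => rw [hx, hy]
    abel
  | hmul x l hx =>
    have h1 : up (dn (io l)) * dT E = -(dT E * up (dn (io l))) :=
      io_anti1 _ (isDeg_up (isDeg_dn (isDeg_io l)))
    have h2 : nc (io l * x) = l (eT E) • dn x - dn (io l) * nc x := by
      rw [nc_apply, ii_io_mul, map_sub, map_smul, map_mul, nc_apply]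
    rw [h2, map_mul, map_mul, map_sub, map_smul, map_mul]
    conv_lhs => rw [hx, io_dec l]
    rw [add_mul, mul_add, mul_add, ← mul_assoc _ (dT E), h1, smul_mul_assoc, smul_mul_assoc,
      dT_dT, smul_zero, add_zero, mul_sub, mul_smul_comm, neg_mul, mul_assoc]
    abel

theorem ext_dec {c c' : Ext (E × ℝ)} (h : dn c = dn c') (h' : nc c = nc c') : c = c' := by
  rw [dec c, dec c', h, h']

theorem eq_up {c : Ext (E × ℝ)} (h : nc c = 0) : c = up (dn c) := by
  conv_lhs => rw [dec c, h, map_zero, mul_zero, add_zero]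

theorem dT_mul_eq (c : Ext (E × ℝ)) : dT E * c = dT E * up (dn c) := by
  conv_lhs => rw [dec c, mul_add, dT_dT, add_zero]

theorem finrank_prod_real : finrank ℝ (E × ℝ) = finrank ℝ E + 1 := by
  rw [finrank_prod, finrank_self]

theorem exists_kap : ∃ k : ℝ, k ≠ 0 ∧ ∀ c : Ext E, tp (E × ℝ) (dT E * up c) = k * tp E c := by
  obtain ⟨k, -, hk⟩ := evA_eq_tp (finrank_prod_real (E := E))
    (Matrix.vecCons (eT E) fun i => ((finBasis ℝ E i, 0) : E × ℝ))
  have h : ∀ c : Ext E, tp E c = k * tp (E × ℝ) (dT E * up c) := fun c => by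
    rw [← hk, evA_ii, ii_dT_mul, ii_up, mul_zero, sub_zero, up, evA_pb, tp_apply]
    rfl
  have h0 : k ≠ 0 := by
    rintro rfl
    have := h (vol0 E)
    rw [tp_vol0, zero_mul] at this
    exact one_ne_zero this
  exact ⟨k⁻¹, inv_ne_zero h0, fun c => by rw [h c, inv_mul_cancel_left₀ h0]⟩

variable (E) in
/-- the constant comparing the chosen bases of `E × ℝ` and `E` -/
def kap : ℝ := (exists_kap (E := E)).choose

theorem kap_ne : kap E ≠ 0 := (exists_kap (E := E)).choose_spec.1

theorem tp_dT_up (c : Ext E) : tp (E × ℝ) (dT E * up c) = kap E * tp E c :=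
  (exists_kap (E := E)).choose_spec.2 c

theorem tp_dT_mul (c : Ext (E × ℝ)) : tp (E × ℝ) (dT E * c) = kap E * tp E (dn c) := by
  rw [dT_mul_eq, tp_dT_up]

theorem tp_up (c : Ext E) : tp (E × ℝ) (up c) = 0 := by
  rw [tp_apply, up, evA_pb]
  refine AlternatingMap.map_linearDependent _ _ fun hw => ?_
  have := hw.fintype_card_le_finrank
  rw [Fintype.card_fin, finrank_prod_real] at this
  omega

/-- the top part of a form on `E × ℝ` -/
theorem tp_eq (c : Ext (E × ℝ)) : tp (E × ℝ) c = kap E * tp E (nc c) := by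
  conv_lhs => rw [dec c, map_add, tp_up, zero_add, tp_dT_up]

theorem nc_mul (a b : Ext (E × ℝ)) : nc (a * b) = nc a * dn b + F.inv (dn a) * nc b := by
  rw [nc_apply, ii_mul, map_add, map_mul, map_mul, nc_apply, nc_apply, dn, pb_inv]

/-- the product of two forms of degree two -/
theorem tp_mul2 {a b : Ext (E × ℝ)} (ha : IsDeg 2 a) :
    tp (E × ℝ) (a * b) = kap E * (tp E (nc a * dn b) + tp E (nc b * dn a)) := by
  rw [tp_eq, nc_mul, inv_of_deg (isDeg_dn ha), map_add, comm2 (isDeg_dn ha) (nc b)]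
  simp

theorem tp_sq {a : Ext (E × ℝ)} (ha : IsDeg 2 a) :
    tp (E × ℝ) (a * a) = 2 * kap E * tp E (nc a * dn a) := by
  rw [tp_mul2 ha]
  ring

/-- sign of the square of a two-form for the orientation `dt ∧ o` -/
theorem pos_sq_iff {a : Ext (E × ℝ)} (ha : IsDeg 2 a) (o : Ext E) :
    0 < tp (E × ℝ) (dT E * up o) * tp (E × ℝ) (a * a) ↔ 0 < tp E o * tp E (nc a * dn a) := by
  rw [tp_sq ha, tp_dT_up, show kap E * tp E o * (2 * kap E * tp E (nc a * dn a))
    = 2 * (kap E * kap E) * (tp E o * tp E (nc a * dn a)) by ring]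
  exact mul_pos_iff_of_pos_left (mul_pos two_pos (mul_self_pos.2 kap_ne))

theorem pos_dT_iff (o : Ext E) (c : Ext (E × ℝ)) :
    0 < tp (E × ℝ) (dT E * up o) * tp (E × ℝ) c ↔ 0 < tp E o * tp E (nc c) := by
  rw [tp_eq c, tp_dT_up, mul_mul_mul_comm]
  exact mul_pos_iff_of_pos_left (mul_self_pos.2 kap_ne)

end Crest.Agent.X212.Sym24
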