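import Crest.Agent.X212.Sym24.NF
import Crest.Agent.X212.Cyl58.OE

/-!
# X212 / Sym24, part 5 (helper24): normal form near an end, and the join of two ends

`psh` (push-forward by an open embedding), `nf_star`, `same_nq`, `exists_prim`, `exists_nrm`,
`Jg`, `Jg.patch`, `Jg.join`.
-/

set_option autoImplicit false
set_option linter.unusedSectionVars false

open Set Filter Topology Function Module
open scoped ContDiff Manifold
open Crest.Agent.R208 Crest.Agent.R208.F Crest.Agent.R208.FI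
open Crest.Agent.X212.Dr59 Crest.Agent.X212.Int54 Crest.Agent.X212.Orx52 Crest.Agent.X212.Cyl58

noncomputable section

namespace Crest.Agent.X212.Sym24

variable {E : Type*} [NormedAddCommGroup E] [NormedSpace ℝ E] [FiniteDimensional ℝ E]
  {H : Type*} [TopologicalSpace H] {I : ModelWithCorners ℝ E H} [I.Boundaryless]
  {M : Type*} [TopologicalSpace M] [ChartedSpace H M] [IsManifold I ∞ M]
  {E' : Type*} [NormedAddCommGroup E'] [NormedSpace ℝ E'] [FiniteDimensional ℝ E']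
  {H' : Type*} [TopologicalSpace H'] {J : ModelWithCorners ℝ E' H'} [J.Boundaryless]
  {N : Type*} [TopologicalSpace N] [ChartedSpace H' N] [IsManifold J ∞ N]

/-! ### push-forward -/

section psh

/-- push-forward by an open embedding, extended by zero -/
def psh (J : ModelWithCorners ℝ E' H') (I : ModelWithCorners ℝ E H) (j : N → M) (a : N → Ext E') :
    M → Ext E :=
  extend j (fun p => pb ((mf J I j p).inverse : E →ₗ[ℝ] E') (a p)) 0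

variable {j f : N → M} {a : N → Ext E'} {b c : M → Ext E} {y : N}

theorem isInvertible_mf (hf : IsLocalDiffeomorphAt J I ∞ f y) : (mf J I f y).IsInvertible :=
  ⟨hf.mfderivToContinuousLinearEquiv (by simp), rfl⟩

theorem eq_of_pm (hf : IsLocalDiffeomorphAt J I ∞ f y) (h : pm J I f b y = pm J I f c y) :
    b (f y) = c (f y) := by
  have e : ∀ x : Ext E, pb ((mf J I f y).inverse : E →ₗ[ℝ] E') (pb (mf J I f y : E' →ₗ[ℝ] E) x)
      = x := fun x => by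
    rw [pb_comp]
    exact (congrArg (fun A : E →L[ℝ] E => pb (A : E →ₗ[ℝ] E) x)
      (isInvertible_mf hf).self_comp_inverse).trans (pb_id x)
  rw [← e (b (f y)), ← pm_apply, h, pm_apply, e]

theorem smAt_of_ld (hf : IsLocalDiffeomorphAt J I ∞ f y) (h : SmAt J (pm J I f b) y) :
    SmAt I b (f y) := by
  have e : hf.localInverse (f y) = y := hf.localInverse_left_inv hf.localInverse_mem_target
  have h1 : SmAt I (pm I J hf.localInverse (pm J I f b)) (f y) :=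
    SmAt.pm hf.localInverse_contMDiffAt (by rwa [e])
  refine h1.congr ?_
  have c := hf.localInverse_contMDiffAt.continuousAt
  filter_upwards [eventually_ld hf.localInverse_isLocalDiffeomorphAt,
    c.eventually (e.symm ▸ eventually_ld hf),
    hf.localInverse_eventuallyEq_right.eventuallyEq_nhds] with x h2 h3 h4
  rw [pm_comp (h3.mdifferentiableAt ne0) (h2.mdifferentiableAt ne0), pm_of_eventually_id h4]

theorem psh_apply (hj : IsOE J I j) (a : N → Ext E') (p : N) :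
    psh J I j a (j p) = pb ((mf J I j p).inverse : E →ₗ[ℝ] E') (a p) := hj.inj.extend_apply _ _ p

theorem pm_psh (hj : IsOE J I j) (a : N → Ext E') : pm J I j (psh J I j a) = a := by
  funext p
  rw [pm_apply, psh_apply hj, pb_comp]
  exact (congrArg (fun A : E' →L[ℝ] E' => pb (A : E' →ₗ[ℝ] E') (a p))
    (isInvertible_mf (hj.loc p)).inverse_comp_self).trans (pb_id _)

theorem psh_of_notMem {x : M} (h : x ∉ range j) : psh J I j a x = 0 := extend_apply' _ _ _ h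

theorem psh_zero (hj : IsOE J I j) {C : Set N} (h0 : ∀ p ∉ C, a p = 0) {x : M} (h : x ∉ j '' C) :
    psh J I j a x = 0 := by
  by_cases hx : x ∈ range j
  · obtain ⟨p, rfl⟩ := hx
    rw [psh_apply hj, h0 p fun hp => h ⟨p, hp, rfl⟩, map_zero]
  · exact psh_of_notMem hx

theorem dg_psh (hj : IsOE J I j) {k : ℕ} (h : Dg k univ a) : Dg k univ (psh J I j a) := by
  intro x _
  by_cases hx : x ∈ range j
  · obtain ⟨p, rfl⟩ := hx
    rw [psh_apply hj]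
    exact (h p trivial).pb _
  · rw [psh_of_notMem hx]
    exact IsDeg.zero

theorem smAt_psh (hj : IsOE J I j) (h : SmAt J a y) : SmAt I (psh J I j a) (j y) :=
  smAt_of_ld (hj.loc y) (by rwa [pm_psh hj])

theorem psh_ev (hj : IsOE J I j) {C : Set N} (hC : IsClosed (j '' C)) (h0 : ∀ p ∉ C, a p = 0)
    {x : M} (h : x ∉ j '' C) : psh J I j a =ᶠ[𝓝 x] 0 :=
  eventually_of_mem (hC.isOpen_compl.mem_nhds h) fun _ hx => psh_zero hj h0 hx

theorem sm_psh (hj : IsOE J I j) {C : Set N} (hC : IsClosed (j '' C)) (h0 : ∀ p ∉ C, a p = 0)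
    (h : Sm J univ a) : Sm I univ (psh J I j a) := by
  intro x _
  by_cases hx : x ∈ j '' C
  · obtain ⟨p, -, rfl⟩ := hx
    exact smAt_psh hj (h p trivial)
  · exact cAt_zero.congr (psh_ev hj hC h0 hx)

theorem pos_ld (hf : IsLocalDiffeomorphAt J I ∞ f y) :
    0 < tp E' (pm J I f b y) * tp E' (pm J I f c y) ↔ 0 < tp E (b (f y)) * tp E (c (f y)) := by
  rw [tp_ld hf, tp_ld hf, mul_mul_mul_comm]
  exact mul_pos_iff_of_pos_left (mul_self_pos.2 (jac_ld hf))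

end psh

/-! ### normal form near an end -/

section star

variable {ι : Type*} {j : M × ℝ → N} {o : M → Ext E} {O : N → Ext E'} {Z la : ι → N → Ext E'}
  {B α : ι → M → Ext E} {ε : ℝ}

theorem pm_om (hj : IsOE (IR I) J j) {z l : N → Ext E'} {b : M → Ext E} {p : M × ℝ}
    (hz : pm (IR I) J j z p = pu b p) (hl : SmAt J l (j p)) :
    pm (IR I) J j (z - dM J l) p = (pu b - dM (IR I) (pm (IR I) J j l)) p := by
  rw [pm_sub, Pi.sub_apply, Pi.sub_apply, hz, dM_pm ne0 (hj.contMDiff p) hl]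

theorem pos_iff (hj : IsOE (IR I) J j) (hO : SameOn (pm (IR I) J j O) (OO o) univ)
    {c : N → Ext E'} {p : M × ℝ} :
    0 < tp E' (O (j p)) * tp E' (c (j p)) ↔ 0 < rat (OO o) (pm (IR I) J j c) p := by
  rw [← pos_ld (hj.loc p), pos_rat]
  exact ⟨fun h => pos_trans (mul_comm (tp _ (OO o p)) _ ▸ hO p trivial) h,
    fun h => pos_trans (hO p trivial) h⟩

theorem zero_mem (hj : IsOE (IR I) J j) {T : ℝ} {p : M × ℝ} (h : p.2 ≤ T) :
    j p ∈ (j '' (univ ×ˢ Ioi T))ᶜ := by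
  rintro ⟨q, hq, e⟩
  rw [← hj.inj e] at h
  exact h.not_gt hq.2

theorem notMem_Ici (hj : IsOE (IR I) J j) {T : ℝ} {p : M × ℝ} (h : p.2 < T) :
    j p ∉ j '' (univ ×ˢ Ici T) := by
  rintro ⟨q, hq, e⟩
  rw [← hj.inj e] at h
  exact h.not_ge hq.2

theorem cyl_pos (hj : IsOE (IR I) J j) (hO : SameOn (pm (IR I) J j O) (OO o) univ)
    (hZ : ∀ q y, pm (IR I) J j (Z q) (y, 0) = pu (B q) (y, 0)) (hl : ∀ q, Sm J univ (la q))
    (hp : ∀ q r, SameOn O ((Z q - dM J (la q)) * (Z r - dM J (la r))) (j '' (univ ×ˢ Ioi 0))ᶜ)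
    (q r : ι) (y : M) : 0 < rat (OO o) ((pu (B q) - dM (IR I) (pm (IR I) J j (la q))) *
      (pu (B r) - dM (IR I) (pm (IR I) J j (la r)))) (y, 0) := by
  have h := (pos_iff hj hO).1 (hp q r _ (zero_mem hj (p := (y, 0)) le_rfl))
  rwa [rat, pm_mul, Pi.mul_apply, pm_om hj (hZ q y) (hl q _ trivial),
    pm_om hj (hZ r y) (hl r _ trivial)] at h

variable (I J) in
/-- the normal component of `B - d la` along the slice -/
def nn (j : M × ℝ → N) (b : M → Ext E) (l : N → Ext E') : M → Ext E :=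
  nq (pu b - dM (IR I) (pm (IR I) J j l))

theorem sm_nn (hj : IsOE (IR I) J j) {b : M → Ext E} {l : N → Ext E'} (hb : Sm I univ b)
    (hl : Sm J univ l) : Sm I univ (nn I J j b l) := fun _ _ =>
  smAt_nq ((smAt_pu (hb _ trivial)).sub (SmAt.pm (hj.contMDiff _) (hl _ trivial)).dM)

theorem dg_nn {b : M → Ext E} {l : N → Ext E'} (hb : Dg 2 univ b) (hl : Dg 1 univ l) :
    Dg 1 univ (nn I J j b l) := fun _ _ => isDeg_nq
  (Dg.sub (U := univ) (fun _ _ => isDeg_up (hb _ trivial))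
    ((hl.pm (mapsTo_univ _ _)).dM isOpen_univ) _ trivial)

/-- the normal components form an admissible family `α` for `nf_star` -/
theorem same_nn (hj : IsOE (IR I) J j) (hO : SameOn (pm (IR I) J j O) (OO o) univ)
    (hB' : ∀ q, Dg 2 univ (B q)) (hZ : ∀ q y, pm (IR I) J j (Z q) (y, 0) = pu (B q) (y, 0))
    (hl : ∀ q, Sm J univ (la q)) (hl' : ∀ q, Dg 1 univ (la q))
    (h0 : ∀ q, sl 0 (pm (IR I) J j (la q)) = 0)
    (hp : ∀ q r, SameOn O ((Z q - dM J (la q)) * (Z r - dM J (la r))) (j '' (univ ×ˢ Ioi 0))ᶜ)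
    (q r : ι) : SameOn o (nn I J j (B q) (la q) * B r + nn I J j (B r) (la r) * B q) univ := by
  intro y _
  have h := cyl_pos hj hO hZ hl hp q r y
  have e : ∀ q, sl 0 (pu (B q) - dM (IR I) (pm (IR I) J j (la q))) = B q := fun q => funext fun x => by
    rw [sl, Pi.sub_apply, map_sub, dn_dM_zero (SmAt.pm (hj.contMDiff _) (hl q _ trivial)) (h0 q),
      sub_zero, pu, dn_up]
  have d : Dg 2 univ (pu (B q) - dM (IR I) (pm (IR I) J j (la q))) :=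
    Dg.sub (fun _ _ => isDeg_up (hB' q _ trivial)) (((hl' q).pm (mapsTo_univ _ _)).dM isOpen_univ)
  rw [rat_nq o (d _ trivial), e, e] at h
  exact pos_rat.1 h

/-- **normal form near an end** -/
theorem nf_star [CompactSpace M] [Finite ι] (hj : IsOE (IR I) J j)
    (hc : ∀ T, IsClosed (j '' (univ ×ˢ Ici T))) (ho : Ori I o)
    (hO : SameOn (pm (IR I) J j O) (OO o) univ) (hε : 0 < ε)
    (hB : ∀ q, Sm I univ (B q)) (hB' : ∀ q, Dg 2 univ (B q))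
    (hα : ∀ q, Sm I univ (α q)) (hα' : ∀ q, Dg 1 univ (α q))
    (hZ : ∀ q p, -ε < p.2 → pm (IR I) J j (Z q) p = pu (B q) p)
    (hl : ∀ q, Sm J univ (la q)) (hl' : ∀ q, Dg 1 univ (la q))
    (h0 : ∀ q, sl 0 (pm (IR I) J j (la q)) = 0)
    (hp : ∀ q r, SameOn O ((Z q - dM J (la q)) * (Z r - dM J (la r))) (j '' (univ ×ˢ Ioi 0))ᶜ)
    (ha : ∀ q r, SameOn o (α q * B r + α r * B q) univ) (T T' : ℝ) :
    ∃ ε' δ₁ : ℝ, 0 < ε' ∧ ε' < ε ∧ 0 < δ₁ ∧ ∀ δ ∈ Ioc 0 δ₁, ∃ la' : ι → N → Ext E',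
      (∀ q, Sm J univ (la' q)) ∧ (∀ q, Dg 1 univ (la' q)) ∧
      (∀ q, ∀ x ∉ j '' (univ ×ˢ Ioi (-ε)), la' q x = la q x) ∧
      (∀ q p, -ε' ≤ p.2 → pm (IR I) J j (la' q) p = -((δ * (p.2 - T)) • pu (α q) p)) ∧
      ∀ q r, SameOn O ((Z q - dM J (la' q)) * (Z r - dM J (la' r))) (j '' (univ ×ˢ Ioi T'))ᶜ := by
  obtain ⟨s, ε', δ₁, h1, h2, h3, h4, h5⟩ := nf_cyl (la := fun q => pm (IR I) J j (la q)) ho hB hB'
    hα hα' (fun q p _ => SmAt.pm (hj.contMDiff p) (hl q _ trivial))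
    (fun q => (hl' q).pm (mapsTo_univ _ _)) h0
    (cyl_pos hj hO (fun q y => hZ q _ (neg_neg_of_pos hε)) hl hp)
    (fun q r y => pos_rat.2 (ha q r y trivial)) hε T T'
  refine ⟨ε', δ₁, h1, h2.trans h3, h4, fun δ hδ => ?_⟩
  obtain ⟨μ, m1, m2, m3, m4, m5⟩ := h5 δ hδ
  have z : ∀ q, ∀ p ∉ (univ ×ˢ Ici (-s) : Set (M × ℝ)), μ q p = 0 := fun q p hp =>
    m3 q p (le_of_not_ge fun h => hp ⟨trivial, h⟩)
  have sl : ∀ q, Sm J univ (la q - psh (IR I) J j (μ q)) := fun q =>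
    (hl q).sub (sm_psh hj (hc _) (z q) (m1 q))
  have e : ∀ q, pm (IR I) J j (la q - psh (IR I) J j (μ q)) = pm (IR I) J j (la q) - μ q :=
    fun q => by rw [pm_sub, pm_psh hj]
  refine ⟨fun q => la q - psh (IR I) J j (μ q), sl, fun q => (hl' q).sub (dg_psh hj (m2 q)),
    fun q x hx => ?_, fun q p h => by rw [e, m4 q p h], fun q r x hx => ?_⟩
  · exact sub_eq_self.2 (psh_zero hj (z q) fun h => hx (image_mono
      (prod_mono_right (Ici_subset_Ioi.2 (neg_lt_neg h3))) h))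
  by_cases h : x ∈ j '' (univ ×ˢ Ici (-s))
  · obtain ⟨p, hp', rfl⟩ := h
    have a1 : -ε < p.2 := (neg_lt_neg h3).trans_le hp'.2
    rw [pos_iff hj hO, rat, pm_mul, Pi.mul_apply, pm_om hj (hZ q p a1) (sl q _ trivial),
      pm_om hj (hZ r p a1) (sl r _ trivial), e, e]
    exact m5 q r p ⟨hp'.2, le_of_not_gt fun h => hx ⟨p, ⟨trivial, h⟩, rfl⟩⟩
  · have e2 : ∀ q, dM J (la q - psh (IR I) J j (μ q)) x = dM J (la q) x := fun q => dM_congr (by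
      filter_upwards [psh_ev hj (hc _) (z q) h] with w hw
      rw [Pi.sub_apply, hw, Pi.zero_apply, sub_zero])
    have := hp q r x fun h' => h (image_mono
      (prod_mono_right (Ioi_subset_Ici (neg_nonpos.2 (h1.trans h2).le))) h')
    simpa only [Pi.mul_apply, Pi.sub_apply, e2] using this

/-- a closed form on the cylinder is cohomologous to the pull-back of its slice -/
theorem exists_prim {k : ℕ} {w : M × ℝ → Ext (E × ℝ)} (hw : Cl (IR I) (k + 1) univ w) :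
    ∃ γ, Sm (IR I) univ γ ∧ Dg k univ γ ∧ ∀ p, dM (IR I) γ p = w p - pu (sl 0 w) p := by
  let Hm : (M × ℝ) × ℝ → M × ℝ := fun z => (z.1.1, z.2 * z.1.2)
  have hH : ContMDiff (IR (IR I)) (IR I) ∞ Hm :=
    contMDiff_fst.fst.prodMk (contMDiff_snd.mul contMDiff_fst.snd)
  have c := hw.pm (Mp.of_contMDiff hH (mapsTo_univ _ univ))
  have s : Sm (IR (IR I)) (univ ×ˢ Icc 0 1) (pm (IR (IR I)) (IR I) Hm w) :=
    c.sm.mono (subset_univ _)
  have e : ∀ t p, sl t (pm (IR (IR I)) (IR I) Hm w) p =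
      pm (IR I) (IR I) (fun z => (z.1, t * z.2)) w p := fun t p => by
    rw [← pm_inl (I := IR I)]
    exact pm_comp (hH.mdifferentiableAt ne0)
      ((contMDiffAt_id.prodMk contMDiffAt_const).mdifferentiableAt ne0)
  refine ⟨hp (pm (IR (IR I)) (IR I) Hm w), sm_hp isOpen_univ s, fun p _ =>
    isDeg_hp (fun t ht => s _ ⟨trivial, ht⟩) fun t _ => c.dg _ trivial, fun p => ?_⟩
  have h := d_hp isOpen_univ s (mem_univ p)
  have h2 : hp (dM (IR (IR I)) (pm (IR (IR I)) (IR I) Hm w)) p = 0 := by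
    simp [hp, c.cl _ (mem_univ _)]
  rw [h2, add_zero, e, e, pm_of_eventually_id (Eventually.of_forall fun z => by simp)] at h
  rw [h, ← pm_fst (I := I), ← pm_inl (I := I), pm_comp (g := fun x => (x, (0 : ℝ)))
    ((contMDiffAt_id.prodMk contMDiffAt_const).mdifferentiableAt ne0) mdifferentiableAt_fst]
  simp only [zero_mul]
  rfl

/-- a closed form can be made independent of `t` on a neck -/
theorem exists_nrm [CompactSpace M] [T2Space N] (hj : IsOE (IR I) J j) {k : ℕ} {z : N → Ext E'}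
    (hz : Cl J (k + 1) univ z) {b : M → Ext E} (hb : Dg (k + 1) univ b)
    (he : Ex I univ (sl 0 (pm (IR I) J j z) - b)) (T : ℝ) : ∃ l, Sm J univ l ∧ Dg k univ l ∧
      (∀ x ∉ j '' (univ ×ˢ Icc (-(T + 1)) (T + 1)), l x = 0) ∧
      ∀ p, |p.2| < T → pm (IR I) J j (z - dM J l) p = pu b p := by
  obtain ⟨γ₀, g1, g2, g3⟩ := exists_prim (hz.pm (Mp.of_contMDiff hj.contMDiff (mapsTo_univ _ univ)))
  obtain ⟨σ, s1, s2, s3⟩ := he.deg (Dg.sub (fun _ _ => isDeg_dn ((hz.dg _ trivial).pb _)) hb)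
  have g4 : Sm (IR I) univ (γ₀ + pu σ) := g1.add fun _ _ => smAt_pu (s1 _ trivial)
  have g5 : Dg k univ (γ₀ + pu σ) := g2.add fun _ _ => isDeg_up (s2 _ trivial)
  let χ : ℝ → ℝ := fun t => Real.smoothTransition (T + 1 - t) * Real.smoothTransition (T + 1 + t)
  have cχ : ContDiff ℝ ∞ χ := by fun_prop
  have z0 : ∀ p ∉ (univ ×ˢ Icc (-(T + 1)) (T + 1) : Set (M × ℝ)), (ft M χ • (γ₀ + pu σ)) p = 0 :=
    fun p hp => by
      have : χ p.2 = 0 := by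
        by_cases h : p.2 ≤ T + 1
        · exact mul_eq_zero_of_right _ (Real.smoothTransition.zero_of_nonpos (by
            linarith [lt_of_not_ge fun h' => hp ⟨trivial, h', h⟩]))
        · exact mul_eq_zero_of_left (Real.smoothTransition.zero_of_nonpos (by linarith)) _
      simp [ft, this]
  have s := sm_psh hj ((isCompact_univ.prod isCompact_Icc).image hj.continuous).isClosed z0
    fun p _ => smAt_ft cχ (g4 p trivial)
  refine ⟨_, s, dg_psh hj (g5.fsmul _), fun x hx => psh_zero hj z0 hx, fun p hp => ?_⟩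
  have e : ft M χ • (γ₀ + pu σ) =ᶠ[𝓝 p] γ₀ + pu σ := by
    filter_upwards [(continuous_snd.abs.tendsto p).eventually (Iio_mem_nhds hp)] with x hx
    have := abs_lt.1 (show |x.2| < T from hx)
    simp [ft, χ, Real.smoothTransition.one_of_one_le (show 1 ≤ T + 1 - x.2 by linarith),
      Real.smoothTransition.one_of_one_le (show 1 ≤ T + 1 + x.2 by linarith)]
  rw [pm_sub, Pi.sub_apply, ← dM_pm ne0 (hj.contMDiff p) (s _ trivial), pm_psh hj, dM_congr e,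
    dM_add ne0 (g1 p trivial) (smAt_pu (s1 _ trivial)), dM_pu (s1 _ trivial), g3]
  simp only [pu, s3 _ (mem_univ _), Pi.sub_apply, map_sub]
  abel

end star

/-! ### the join of two ends -/

/-- the reflection of the cylinder -/
def fl (p : M × ℝ) : M × ℝ := (p.1, -p.2)

theorem contMDiff_fl : ContMDiff (IR I) (IR I) ∞ (fl : M × ℝ → M × ℝ) :=
  contMDiff_fst.prodMk contMDiff_snd.neg

theorem fl_fl (p : M × ℝ) : fl (fl p) = p := Prod.ext rfl (neg_neg _)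

theorem isOE_fl : IsOE (IR I) (IR I) (fl : M × ℝ → M × ℝ) :=
  IsOE.of_diffeo ⟨⟨fl, fl, fl_fl, fl_fl⟩, contMDiff_fl, contMDiff_fl⟩

theorem pm_fl_pu (a : M → Ext E) : pm (IR I) (IR I) fl (pu a) = pu a := by
  funext p
  rw [← pm_fst (I := I), pm_comp mdifferentiableAt_fst (contMDiff_fl.mdifferentiableAt ne0)]
  rfl

theorem pm_fl_dt : pm (IR I) (IR I) fl (dt E M) = -dt E M := by
  funext p
  rw [← df_snd (I := I), pm_df (contMDiff_fl.mdifferentiableAt ne0) mdifferentiableAt_snd]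
  refine (df_comp_snd (I := I) (hasDerivAt_neg' p.2)).trans ?_
  rw [df_snd]
  exact neg_one_smul ℝ _

theorem pm_fl_OO (o : M → Ext E) : pm (IR I) (IR I) fl (OO o) = OO (-o) := by
  rw [OO, pm_mul, pm_fl_pu, pm_fl_dt, OO_neg, neg_mul, OO]

theorem sign_alg {a A u f b B w T : ℝ} (k1 : 0 < a * u * T) (k2 : 0 < f * (b * w) * T)
    (k4 : a * (A * 1) = f * (b * (B * 1))) (h : a * A ≠ 0) : 0 < A * u * (B * w) := by
  have h1 := mul_pos (mul_self_pos.2 h) (pos_trans k1 (mul_comm T _ ▸ k2))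
  refine pos_of_mul_pos_left (b := (a * f * b) ^ 2) (h1.trans_eq ?_) (sq_nonneg _)
  linear_combination a ^ 2 * A * u * f * b * w * k4

section join

variable {X₁ : Type*} [TopologicalSpace X₁] [ChartedSpace H' X₁] [IsManifold J ∞ X₁]
  {X₂ : Type*} [TopologicalSpace X₂] [ChartedSpace H' X₂] [IsManifold J ∞ X₂]

variable (I J) in
/-- `N` is the union of `X₁` and `X₂`, glued along the ends by the reflection -/
structure Jg (j₁ : M × ℝ → X₁) (j₂ : M × ℝ → X₂) (i₁ : X₁ → N) (i₂ : X₂ → N) : Prop where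
  e₁ : IsOE (IR I) J j₁
  e₂ : IsOE (IR I) J j₂
  c₁ : ∀ T, IsClosed (j₁ '' (univ ×ˢ Ici T))
  c₂ : ∀ T, IsClosed (j₂ '' (univ ×ˢ Ici T))
  o₁ : IsOE J J i₁
  o₂ : IsOE J J i₂
  cov : ∀ x, x ∈ range i₁ ∨ x ∈ range i₂
  eq : ∀ p q, i₁ p = i₂ q ↔ ∃ y t, p = j₁ (y, t) ∧ q = j₂ (y, -t)

namespace Jg

variable {j₁ : M × ℝ → X₁} {j₂ : M × ℝ → X₂} {i₁ : X₁ → N} {i₂ : X₂ → N}
  (G : Jg I J j₁ j₂ i₁ i₂)
include G

theorem symm : Jg I J j₂ j₁ i₂ i₁ :=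
  ⟨G.e₂, G.e₁, G.c₂, G.c₁, G.o₂, G.o₁, fun x => (G.cov x).symm, fun p q => by
    rw [eq_comm, G.eq]
    exact ⟨fun ⟨y, t, a, b⟩ => ⟨y, -t, b, by rwa [neg_neg]⟩,
      fun ⟨y, t, a, b⟩ => ⟨y, -t, b, by rwa [neg_neg]⟩⟩⟩

theorem neck (p : M × ℝ) : i₁ (j₁ p) = i₂ (j₂ (fl p)) := (G.eq _ _).2 ⟨p.1, p.2, rfl, rfl⟩

theorem pm_neck (a : N → Ext E') : pm (IR I) J j₁ (pm J J i₁ a) =
    pm (IR I) (IR I) fl (pm (IR I) J j₂ (pm J J i₂ a)) := by
  rw [pm_ld_comp G.o₁.loc G.e₁.loc, pm_ld_comp G.o₂.loc G.e₂.loc,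
    pm_ld_comp (G.o₂.comp G.e₂).loc isOE_fl.loc]
  exact congrArg (pm (IR I) J · a) (funext G.neck)

theorem cov_left {x : N} (h : x ∈ range i₁) : (∃ p ∉ j₁ '' (univ ×ˢ Ioi 0), i₁ p = x) ∨
    ∃ q ∉ j₂ '' (univ ×ˢ Ioi 0), i₂ q = x := by
  obtain ⟨p, rfl⟩ := h
  by_cases hp : p ∈ j₁ '' (univ ×ˢ Ioi 0)
  · obtain ⟨z, hz, rfl⟩ := hp
    exact .inr ⟨_, zero_mem G.e₂ (p := fl z) (neg_nonpos.2 (le_of_lt hz.2)), (G.neck z).symm⟩
  · exact .inl ⟨p, hp, rfl⟩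

/-- the two caps cover -/
theorem cov0 (x : N) : (∃ p ∉ j₁ '' (univ ×ˢ Ioi 0), i₁ p = x) ∨
    ∃ q ∉ j₂ '' (univ ×ˢ Ioi 0), i₂ q = x :=
  (G.cov x).elim G.cov_left fun h => (G.symm.cov_left h).symm

theorem same_right {O : N → Ext E'} {o : M → Ext E}
    (hO : SameOn (pm (IR I) J j₁ (pm J J i₁ O)) (OO o) univ) :
    SameOn (pm (IR I) J j₂ (pm J J i₂ O)) (OO (-o)) univ := by
  rw [G.symm.pm_neck, ← pm_fl_OO (I := I)]
  exact same_pm hO (fun y _ => isOE_fl.loc y) (mapsTo_univ _ _)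

/-- forms that agree on the neck `|t| < ε` are patched -/
theorem patch {a₁ : X₁ → Ext E'} {a₂ : X₂ → Ext E'} {ε : ℝ}
    (h : ∀ p : M × ℝ, |p.2| < ε →
      pm (IR I) J j₁ a₁ p = pm (IR I) (IR I) fl (pm (IR I) J j₂ a₂) p) :
    ∃ a : N → Ext E', (∀ x ∉ j₁ '' (univ ×ˢ Ici ε), pm J J i₁ a x = a₁ x) ∧
      ∀ x ∉ j₂ '' (univ ×ˢ Ici ε), pm J J i₂ a x = a₂ x := by
  classical
  refine ⟨Dr59.glue (i₁ '' (j₁ '' (univ ×ˢ Ici ε))ᶜ) (psh J J i₁ a₁) (psh J J i₂ a₂),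
    fun x hx => ?_, fun x hx => ?_⟩
  · rw [pm_congr_right (glue_left (mem_image_of_mem i₁ hx)), pm_psh G.o₁]
  · rw [pm_congr_right (b := psh J J i₂ a₂), pm_psh G.o₂]
    refine glue_right (V := {i₂ x}) ?_ rfl
    rintro _ ⟨⟨p, hp, e⟩, rfl⟩
    obtain ⟨y, t, rfl, rfl⟩ := (G.eq _ _).1 e
    rw [← e]
    refine eq_of_pm (f := i₁ ∘ j₁) ((G.o₁.comp G.e₁).loc (y, t)) ?_
    rw [← pm_ld_comp G.o₁.loc G.e₁.loc, ← pm_ld_comp G.o₁.loc G.e₁.loc, pm_psh G.o₁, G.pm_neck,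
      pm_psh G.o₂]
    exact h _ (abs_lt.2 ⟨neg_lt.1 (lt_of_not_ge fun h => hx ⟨(y, -t), ⟨trivial, h⟩, rfl⟩),
      lt_of_not_ge fun h => hp ⟨(y, t), ⟨trivial, h⟩, rfl⟩⟩)

theorem ev₁ {a : N → Ext E'} {a₁ : X₁ → Ext E'} {ε : ℝ} (hε : 0 < ε)
    (h : ∀ x ∉ j₁ '' (univ ×ˢ Ici ε), pm J J i₁ a x = a₁ x) {x : X₁}
    (hx : x ∉ j₁ '' (univ ×ˢ Ioi 0)) : pm J J i₁ a =ᶠ[𝓝 x] a₁ :=
  eventually_of_mem ((G.c₁ ε).isOpen_compl.mem_nhds fun h' =>
    hx (image_mono (prod_mono_right (Ici_subset_Ioi.2 hε)) h')) h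

/-- patching of smooth forms -/
theorem patch_sm {a₁ : X₁ → Ext E'} {a₂ : X₂ → Ext E'} {ε : ℝ} (hε : 0 < ε) {k : ℕ}
    (s₁ : Sm J univ a₁) (s₂ : Sm J univ a₂) (d₁ : Dg k univ a₁) (d₂ : Dg k univ a₂)
    (h : ∀ p : M × ℝ, |p.2| < ε →
      pm (IR I) J j₁ a₁ p = pm (IR I) (IR I) fl (pm (IR I) J j₂ a₂) p) :
    ∃ a : N → Ext E', Sm J univ a ∧ Dg k univ a ∧
      (∀ x ∉ j₁ '' (univ ×ˢ Ici ε), pm J J i₁ a x = a₁ x) ∧
      ∀ x ∉ j₂ '' (univ ×ˢ Ici ε), pm J J i₂ a x = a₂ x := by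
  obtain ⟨a, h1, h2⟩ := G.patch h
  refine ⟨a, fun x _ => ?_, fun x _ => ?_, h1, h2⟩
  · rcases G.cov0 x with ⟨p, hp, rfl⟩ | ⟨p, hp, rfl⟩
    · exact smAt_of_ld (G.o₁.loc p) ((s₁ p trivial).congr (G.ev₁ hε h1 hp))
    · exact smAt_of_ld (G.o₂.loc p) ((s₂ p trivial).congr (G.symm.ev₁ hε h2 hp))
  · rcases G.cov0 x with ⟨p, hp, rfl⟩ | ⟨p, hp, rfl⟩
    · rw [eq_of_pm (b := a) (c := psh J J i₁ a₁) (G.o₁.loc p)
        (by rw [pm_psh G.o₁, (G.ev₁ hε h1 hp).eq_of_nhds])]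
      exact dg_psh G.o₁ d₁ _ trivial
    · rw [eq_of_pm (b := a) (c := psh J J i₂ a₂) (G.o₂.loc p)
        (by rw [pm_psh G.o₂, (G.symm.ev₁ hε h2 hp).eq_of_nhds])]
      exact dg_psh G.o₂ d₂ _ trivial

theorem pos₁ {O z z' l l' : N → Ext E'} {z₁ z₁' l₁ l₁' : X₁ → Ext E'} {x : X₁}
    (hl : SmAt J l (i₁ x)) (hl' : SmAt J l' (i₁ x))
    (hz : pm J J i₁ z x = z₁ x) (hz' : pm J J i₁ z' x = z₁' x) (e : pm J J i₁ l =ᶠ[𝓝 x] l₁)
    (e' : pm J J i₁ l' =ᶠ[𝓝 x] l₁')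
    (h : 0 < tp E' (pm J J i₁ O x) * tp E' (((z₁ - dM J l₁) * (z₁' - dM J l₁')) x)) :
    0 < tp E' (O (i₁ x)) * tp E' (((z - dM J l) * (z' - dM J l')) (i₁ x)) := by
  rw [← pos_ld (G.o₁.loc x), pm_mul, Pi.mul_apply, pm_sub, pm_sub, Pi.sub_apply, Pi.sub_apply,
    ← dM_pm ne0 (G.o₁.contMDiff x) hl, ← dM_pm ne0 (G.o₁.contMDiff x) hl', dM_congr e,
    dM_congr e', hz, hz']
  exact h

/-- **join**: pairwise positive families on the two caps give one on the union -/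
theorem join [CompactSpace M] {ι : Type*} [Finite ι] {o : M → Ext E} (ho : Ori I o)
    {O : N → Ext E'} (hO : SameOn (pm (IR I) J j₁ (pm J J i₁ O)) (OO o) univ)
    {Z : ι → N → Ext E'} {Z₁ l₁ : ι → X₁ → Ext E'} {Z₂ l₂ : ι → X₂ → Ext E'}
    {B α : ι → M → Ext E} {ε : ℝ} (hε : 0 < ε) (hB : ∀ q, Sm I univ (B q))
    (hB' : ∀ q, Dg 2 univ (B q)) (sα : ∀ q, Sm I univ (α q)) (dα : ∀ q, Dg 1 univ (α q))
    (pα : ∀ q r, SameOn o (α q * B r + α r * B q) univ)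
    (e₁ : ∀ q, ∀ x ∉ j₁ '' (univ ×ˢ Ioi 0), pm J J i₁ (Z q) x = Z₁ q x)
    (e₂ : ∀ q, ∀ x ∉ j₂ '' (univ ×ˢ Ioi 0), pm J J i₂ (Z q) x = Z₂ q x)
    (hZ₁ : ∀ q p, -ε < p.2 → pm (IR I) J j₁ (Z₁ q) p = pu (B q) p)
    (hZ₂ : ∀ q p, -ε < p.2 → pm (IR I) J j₂ (Z₂ q) p = pu (B q) p)
    (s₁ : ∀ q, Sm J univ (l₁ q)) (d₁ : ∀ q, Dg 1 univ (l₁ q))
    (s₂ : ∀ q, Sm J univ (l₂ q)) (d₂ : ∀ q, Dg 1 univ (l₂ q))
    (z₁ : ∀ q, sl 0 (pm (IR I) J j₁ (l₁ q)) = 0) (z₂ : ∀ q, sl 0 (pm (IR I) J j₂ (l₂ q)) = 0)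
    (p₁ : ∀ q r, SameOn (pm J J i₁ O) ((Z₁ q - dM J (l₁ q)) * (Z₁ r - dM J (l₁ r)))
      (j₁ '' (univ ×ˢ Ioi 0))ᶜ)
    (p₂ : ∀ q r, SameOn (pm J J i₂ O) ((Z₂ q - dM J (l₂ q)) * (Z₂ r - dM J (l₂ r)))
      (j₂ '' (univ ×ˢ Ioi 0))ᶜ) :
    ∃ (l : ι → N → Ext E') (η δ : ℝ), 0 < η ∧ 0 < δ ∧ (∀ q, Sm J univ (l q)) ∧
      (∀ q, Dg 1 univ (l q)) ∧
      (∀ q p, |p.2| < η → pm (IR I) J j₁ (pm J J i₁ (l q)) p = -((δ * p.2) • pu (α q) p)) ∧
      ∀ q r, SameOn O ((Z q - dM J (l q)) * (Z r - dM J (l r))) univ := by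
  obtain ⟨ε₁, δ₁, a1, -, a2, h₁⟩ := nf_star G.e₁ G.c₁ ho hO hε hB hB' sα dα hZ₁ s₁ d₁ z₁ p₁ pα 0 0
  obtain ⟨ε₂, δ₂, b1, -, b2, h₂⟩ := nf_star (α := fun q => -α q) G.e₂ G.c₂ (ori_neg ho)
    (G.same_right hO) hε hB hB' (fun q => (sα q).neg) (fun q => (dα q).neg) hZ₂ s₂ d₂ z₂ p₂
    (fun q r => by rw [neg_mul, neg_mul, ← neg_add]; exact same_neg (pα q r)) 0 0
  obtain ⟨m₁, a3, a4, -, a5, a6⟩ := h₁ (min δ₁ δ₂) ⟨lt_min a2 b2, min_le_left _ _⟩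
  obtain ⟨m₂, b3, b4, -, b5, b6⟩ := h₂ (min δ₁ δ₂) ⟨lt_min a2 b2, min_le_right _ _⟩
  have key : ∀ q (p : M × ℝ), |p.2| < min ε₁ ε₂ →
      pm (IR I) J j₁ (m₁ q) p = pm (IR I) (IR I) fl (pm (IR I) J j₂ (m₂ q)) p := fun q p hp => by
    obtain ⟨c1, c2⟩ := abs_lt.1 hp
    have c3 := congrFun (pm_fl_pu (I := I) (α q)) p
    rw [pm_apply] at c3
    rw [a5 q p (by linarith [min_le_left ε₁ ε₂]), pm_apply,
      b5 q (fl p) (neg_le_neg (c2.le.trans (min_le_right _ _))), map_neg, map_smul,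
      show pu (-α q) (fl p) = -pu (α q) (fl p) from map_neg up _, map_neg, c3]
    simp [fl]
  choose l l1 l2 l3 l4 using fun q =>
    G.patch_sm (lt_min a1 b1) (a3 q) (b3 q) (a4 q) (b4 q) (key q)
  refine ⟨l, min ε₁ ε₂, min δ₁ δ₂, lt_min a1 b1, lt_min a2 b2, l1, l2, fun q p hp => ?_,
    fun q r x _ => ?_⟩
  · obtain ⟨c1, c2⟩ := abs_lt.1 hp
    rw [pm_congr_right (l3 q _ (notMem_Ici G.e₁ c2)), a5 q p (by linarith [min_le_left ε₁ ε₂]),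
      sub_zero]
  rcases G.cov0 x with ⟨p, hp, rfl⟩ | ⟨p, hp, rfl⟩
  · exact G.pos₁ (l1 q _ trivial) (l1 r _ trivial) (e₁ q p hp) (e₁ r p hp)
      (G.ev₁ (lt_min a1 b1) (l3 q) hp) (G.ev₁ (lt_min a1 b1) (l3 r) hp) (a6 q r p hp)
  · exact G.symm.pos₁ (l1 q _ trivial) (l1 r _ trivial) (e₂ q p hp) (e₂ r p hp)
      (G.symm.ev₁ (lt_min a1 b1) (l4 q) hp) (G.symm.ev₁ (lt_min a1 b1) (l4 r) hp) (b6 q r p hp)

/-- patching of closed forms -/
theorem patch_cl {a₁ : X₁ → Ext E'} {a₂ : X₂ → Ext E'} {ε : ℝ} (hε : 0 < ε) {k : ℕ}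
    (s₁ : Cl J k univ a₁) (s₂ : Cl J k univ a₂)
    (h : ∀ p : M × ℝ, |p.2| < ε →
      pm (IR I) J j₁ a₁ p = pm (IR I) (IR I) fl (pm (IR I) J j₂ a₂) p) :
    ∃ a : N → Ext E', Cl J k univ a ∧ (∀ x ∉ j₁ '' (univ ×ˢ Ici ε), pm J J i₁ a x = a₁ x) ∧
      ∀ x ∉ j₂ '' (univ ×ˢ Ici ε), pm J J i₂ a x = a₂ x := by
  obtain ⟨a, h1, h2, h3, h4⟩ := G.patch_sm hε s₁.sm s₂.sm s₁.dg s₂.dg h
  refine ⟨a, ⟨h1, h2, fun x _ => ?_⟩, h3, h4⟩
  rcases G.cov0 x with ⟨p, hp, rfl⟩ | ⟨p, hp, rfl⟩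
  · refine eq_of_pm (c := 0) (G.o₁.loc p) ?_
    rw [← dM_pm ne0 (G.o₁.contMDiff p) (h1 _ trivial), dM_congr (G.ev₁ hε h3 hp), s₁.cl p trivial]
    exact (map_zero _).symm
  · refine eq_of_pm (c := 0) (G.o₂.loc p) ?_
    rw [← dM_pm ne0 (G.o₂.contMDiff p) (h1 _ trivial), dM_congr (G.symm.ev₁ hε h4 hp),
      s₂.cl p trivial]
    exact (map_zero _).symm

/-- the orientation of the join -/
theorem exists_ori [T2Space N] [SigmaCompactSpace N] {o : M → Ext E} {O₁ : X₁ → Ext E'}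
    {O₂ : X₂ → Ext E'} (h₁ : Ori J O₁) (h₂ : Ori J O₂)
    (c₁ : SameOn (pm (IR I) J j₁ O₁) (OO o) univ) (c₂ : SameOn (pm (IR I) J j₂ O₂) (OO (-o)) univ) :
    ∃ O, Ori J O ∧ SameOn (pm J J i₁ O) O₁ univ ∧ SameOn (pm J J i₂ O) O₂ univ := by
  obtain ⟨O, a, -, b, c⟩ := exists_ori_two G.o₁.loc G.o₂.loc G.o₁.inj G.o₂.inj G.cov h₁ h₂
    fun a b e => by
      obtain ⟨y, t, rfl, rfl⟩ := (G.eq _ _).1 e
      have k1 := c₁ (y, t) trivial
      have k2 := same_pm c₂ (fun y _ => (isOE_fl (I := I)).loc y) (mapsTo_univ _ univ) (y, t) trivial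
      rw [pm_fl_OO, neg_neg, tp_ld (isOE_fl.loc _), tp_ld (G.e₂.loc _)] at k2
      rw [tp_ld (G.e₁.loc _)] at k1
      have k4 := congrArg (tp _) (congrFun (G.pm_neck fun _ => vol0 E') (y, t))
      rw [tp_ld (G.e₁.loc _), tp_ld (G.o₁.loc _), tp_ld (isOE_fl.loc _), tp_ld (G.e₂.loc _),
        tp_ld (G.o₂.loc _), tp_vol0] at k4
      exact sign_alg k1 k2 k4 (mul_ne_zero (jac_ld (G.e₁.loc _)) (jac_ld (G.o₁.loc _)))
  exact ⟨O, a, b, c⟩

end Jg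

end join

end Crest.Agent.X212.Sym24
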